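import Vale.Agent.P128.T.Basic

/-! P128 T/End (TASK, about 300 lines): regularity up to the end point.
`deriv_rate`: with `δ = (r/ρ)^(β/2) / 2`, `h = δ r`: `‖z r - z (r - h) - h • z' r‖ ≤ A δ^α h` (mean value inequality for `s ↦ z s - s • z' r` on `[r - h, r]`) and `‖z r - z (r - h) - h e‖ ≤ 2 C r^(1+β)`;
`γ = min (α β / 2) (β / 2)`. `holder_up`: for `s < r`, `h = r - s`: if `h ≤ r² / (2ρ)` use `Radial.holder` (`h / r ≤ √(h / (2ρ))`), otherwise both are within `C' r^γ ≤ C' (2ρ h)^(γ/2)` of `e`; `α' = min α γ / 2`.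
`end_arc`: `γ t = if t ≤ 0 then x else z (ρ t)`, `γ' t = if t ≤ 0 then ρ e else ρ z' (ρ t)`; derivative at `0` from the hypothesis (`hasDerivWithinAt_iff_tendsto_slope'`), injective by `Radial.norm`,
`radial_gen`, `|s - t|^α₀ ≤ |s - t|^α'` on `[0, 1]` (`Real.rpow_le_rpow_of_exponent_ge'`). Helper names end with `_End`. -/

namespace Vale.Agent.P128.T

open MeasureTheory Set Metric Filter Topology
open scoped ENNReal ComplexConjugate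

noncomputable section

variable {Ω K : Set ℂ} {ε ρ a b t c₀ : ℝ} {wk : Prop} {u : ℂ → ℝ} {x : ℂ} {z z' W : ℝ → ℂ}

theorem C_End {C p : ℝ} (hρ : 0 < ρ) {v : ℂ} (h : ‖v‖ ≤ C * ρ ^ p) : 0 ≤ C := by
  by_contra hC
  have := mul_neg_of_neg_of_pos (not_le.1 hC) (Real.rpow_pos_of_pos hρ p)
  linarith [norm_nonneg v]

theorem A_End {A α : ℝ} (hρ : 0 < ρ) (hz : Radial x ρ A α z z') : 0 ≤ A :=
  C_End (div_pos (by linarith) hρ)
    (hz.holder ρ ⟨hρ, le_rfl⟩ (ρ / 2) ⟨le_rfl, half_le_self hρ.le⟩)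

theorem step_End {A α C β δ r : ℝ} {e : ℂ} (hα : 0 < α) (hβ : 0 < β) (hA : 0 ≤ A) (hC : 0 ≤ C)
    (hz : Radial x ρ A α z z') (h : ∀ r ∈ Ioc 0 ρ, ‖z r - x - r * e‖ ≤ C * r ^ (1 + β))
    (hr : r ∈ Ioc 0 ρ) (h0 : 0 < δ) (h1 : δ ≤ 1 / 2) :
    ‖z' r - e‖ ≤ A * δ ^ α + 2 * C * r ^ β / δ := by
  have hr0 := hr.1
  have hh : 0 < δ * r := by positivity
  have hh2 : δ * r ≤ r / 2 := by nlinarith
  have hs : ∀ s ∈ Icc (r - δ * r) r, s ∈ Ioc 0 ρ := fun s hs =>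
    ⟨by linarith [hs.1], hs.2.trans hr.2⟩
  have k1 := norm_image_sub_le_of_norm_deriv_le_segment' (f := fun s : ℝ => z s - s • z' r)
    (f' := fun s => z' s - z' r) (a := r - δ * r) (b := r) (C := A * δ ^ α)
    (fun s h' => by
      have := (hz.deriv s (hs s h')).fun_sub ((hasDerivAt_id' s).smul_const (z' r))
      rw [one_smul] at this
      exact this.hasDerivWithinAt)
    (fun s h' => by
      rw [norm_sub_rev]
      refine (hz.holder r hr s ⟨by linarith [h'.1], h'.2.le⟩).trans ?_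
      refine mul_le_mul_of_nonneg_left (Real.rpow_le_rpow (div_nonneg (by linarith [h'.2]) hr0.le)
        ((div_le_iff₀ hr0).2 (by linarith [h'.1])) hα.le) hA)
    r ⟨by linarith, le_rfl⟩
  have k2 := h r hr
  have k3 := (h _ (hs _ ⟨le_rfl, by linarith⟩)).trans (mul_le_mul_of_nonneg_left
    (Real.rpow_le_rpow (by linarith) (show r - δ * r ≤ r by linarith) (by linarith)) hC)
  have e1 : ((δ * r : ℝ) : ℂ) * (z' r - e) = (z r - x - r * e) -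
      (z (r - δ * r) - x - ((r - δ * r : ℝ) : ℂ) * e) -
      (z r - r • z' r - (z (r - δ * r) - (r - δ * r) • z' r)) := by
    simp only [Complex.real_smul]
    push_cast
    ring
  have k4 : δ * r * ‖z' r - e‖ ≤ C * r ^ (1 + β) + C * r ^ (1 + β) +
      A * δ ^ α * (r - (r - δ * r)) := by
    rw [show δ * r * ‖z' r - e‖ = ‖((δ * r : ℝ) : ℂ) * (z' r - e)‖ by
      rw [norm_mul, Complex.norm_real, Real.norm_of_nonneg hh.le], e1]
    exact (norm_sub_le _ _).trans (add_le_add ((norm_sub_le _ _).trans (add_le_add k2 k3)) k1)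
  rw [Real.rpow_add hr0, Real.rpow_one] at k4
  refine le_of_mul_le_mul_left (k4.trans_eq ?_) hh
  field_simp
  ring

theorem deriv_rate' {A α C β : ℝ} {e : ℂ} (hρ : 0 < ρ) (hα : 0 < α) (hβ : 0 < β)
    (hz : Radial x ρ A α z z') (h : ∀ r ∈ Ioc 0 ρ, ‖z r - x - r * e‖ ≤ C * r ^ (1 + β)) :
    ∃ C' : ℝ, 0 ≤ C' ∧ ∀ r ∈ Ioc 0 ρ, ‖z' r - e‖ ≤ C' * r ^ min (α * (β / 2)) (β / 2) := by
  have hA := A_End hρ hz
  have hC := C_End hρ (h ρ ⟨hρ, le_rfl⟩)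
  refine ⟨(A + 4 * C * ρ ^ β) / ρ ^ min (α * (β / 2)) (β / 2), by positivity,
    fun r hr => ?_⟩
  have hr0 := hr.1
  have hq0 : 0 < r / ρ := by positivity
  have hq1 : r / ρ ≤ 1 := (div_le_one hρ).2 hr.2
  have hw0 : 0 < (r / ρ) ^ (β / 2) := by positivity
  have hw1 : (r / ρ) ^ (β / 2) ≤ 1 := Real.rpow_le_one hq0.le hq1 (by positivity)
  have e1 : r ^ β = ρ ^ β * ((r / ρ) ^ (β / 2) * (r / ρ) ^ (β / 2)) := by
    rw [← Real.rpow_add hq0, add_halves, ← Real.mul_rpow hρ.le hq0.le, mul_div_cancel₀ _ hρ.ne']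
  have b1 : (r / ρ) ^ (β / 2) ≤ (r / ρ) ^ min (α * (β / 2)) (β / 2) :=
    Real.rpow_le_rpow_of_exponent_ge hq0 hq1 (min_le_right _ _)
  have b2 : ((r / ρ) ^ (β / 2) / 2) ^ α ≤ (r / ρ) ^ min (α * (β / 2)) (β / 2) := by
    refine (Real.rpow_le_rpow (by positivity) (half_le_self hw0.le) hα.le).trans ?_
    rw [← Real.rpow_mul hq0.le, mul_comm]
    exact Real.rpow_le_rpow_of_exponent_ge hq0 hq1 (min_le_left _ _)
  have k := step_End hα hβ hA hC hz h hr (δ := (r / ρ) ^ (β / 2) / 2) (by positivity) (by linarith)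
  rw [div_mul_eq_mul_div, mul_div_assoc, ← Real.div_rpow hr0.le hρ.le]
  rw [e1] at k
  generalize (r / ρ) ^ min (α * (β / 2)) (β / 2) = m at b1 b2 ⊢
  have hP : 0 < ρ ^ β := by positivity
  generalize ρ ^ β = P at k hP ⊢
  generalize ((r / ρ) ^ (β / 2) / 2) ^ α = d at k b2
  generalize (r / ρ) ^ (β / 2) = w at k b1 hw0
  have e2 : 2 * C * (P * (w * w)) / (w / 2) = 4 * C * P * w := by
    field_simp
    ring
  rw [e2] at k
  nlinarith [mul_le_mul_of_nonneg_left b2 hA,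
    mul_le_mul_of_nonneg_left b1 (show 0 ≤ 4 * C * P by positivity)]

theorem deriv_rate {A α C β : ℝ} {e : ℂ} (hρ : 0 < ρ) (hα : 0 < α) (hβ : 0 < β)
    (hz : Radial x ρ A α z z') (h : ∀ r ∈ Ioc 0 ρ, ‖z r - x - r * e‖ ≤ C * r ^ (1 + β)) :
    ∃ γ C' : ℝ, 0 < γ ∧ 0 ≤ C' ∧ ∀ r ∈ Ioc 0 ρ, ‖z' r - e‖ ≤ C' * r ^ γ := by
  obtain ⟨C', h1, h2⟩ := deriv_rate' hρ hα hβ hz h
  exact ⟨_, C', lt_min (by positivity) (by positivity), h1, h2⟩

theorem pow_End {r p q : ℝ} (hr : r ∈ Ioc 0 ρ) (h : p ≤ q) : r ^ q ≤ ρ ^ (q - p) * r ^ p := by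
  have e : r ^ q = r ^ (q - p) * r ^ p := by rw [← Real.rpow_add hr.1, sub_add_cancel]
  rw [e]
  exact mul_le_mul_of_nonneg_right (Real.rpow_le_rpow hr.1.le hr.2 (sub_nonneg.2 h))
    (Real.rpow_nonneg hr.1.le p)

theorem holder_up' {A α C γ a : ℝ} {e : ℂ} (hρ : 0 < ρ) (hγ : 0 < γ) (ha : 0 < a)
    (h1 : 2 * a ≤ α) (h2 : 2 * a ≤ γ)
    (hz : Radial x ρ A α z z') (h : ∀ r ∈ Ioc 0 ρ, ‖z' r - e‖ ≤ C * r ^ γ) :
    ∃ C' : ℝ, 0 ≤ C' ∧ (∀ r ∈ Ioc 0 ρ, ‖z' r - e‖ ≤ C' * r ^ a) ∧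
      ∀ r ∈ Ioc 0 ρ, ∀ s ∈ Ioc 0 ρ, ‖z' r - z' s‖ ≤ C' * |r - s| ^ a := by
  have hA := A_End hρ hz
  have hC := C_End hρ (h ρ ⟨hρ, le_rfl⟩)
  have p1 : 0 ≤ C * ρ ^ (γ - a) := by positivity
  have p2 : 0 ≤ A / (2 * ρ) ^ a := by positivity
  have p3 : 0 ≤ 2 * C * ρ ^ (γ - 2 * a) * (2 * ρ) ^ a := by positivity
  have sq : ∀ y : ℝ, 0 ≤ y → y ^ (2 * a) = (y ^ 2) ^ a := fun y hy => by
    rw [Real.rpow_mul hy, Real.rpow_two]
  have key : ∀ r ∈ Ioc 0 ρ, ∀ s ∈ Ioc 0 ρ, s ≤ r → ‖z' r - z' s‖ ≤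
      (C * ρ ^ (γ - a) + A / (2 * ρ) ^ a + 2 * C * ρ ^ (γ - 2 * a) * (2 * ρ) ^ a) * (r - s) ^ a := by
    intro r hr s hs hsr
    have hr0 := hr.1
    have hh : 0 ≤ r - s := by linarith
    have hp : 0 ≤ (r - s) ^ a := by positivity
    by_cases hc : (r - s) * (2 * ρ) ≤ r ^ 2
    · have k0 : r - s ≤ r / 2 := by nlinarith [hr.2]
      have k1 := hz.holder r hr s ⟨by linarith, hsr⟩
      have k2 : ((r - s) / r) ^ α ≤ (r - s) ^ a / (2 * ρ) ^ a := by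
        refine (Real.rpow_le_rpow_of_exponent_ge' (by positivity)
          ((div_le_one hr0).2 (by linarith)) (by positivity) h1).trans ?_
        rw [sq _ (by positivity), ← Real.div_rpow hh (by positivity)]
        refine Real.rpow_le_rpow (by positivity) ?_ ha.le
        rw [div_pow, div_le_div_iff₀ (by positivity) (by positivity)]
        nlinarith [mul_le_mul_of_nonneg_left hc hh]
      have k3 := k1.trans (mul_le_mul_of_nonneg_left k2 hA)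
      rw [← mul_div_assoc, mul_div_right_comm] at k3
      nlinarith [mul_nonneg p1 hp, mul_nonneg p3 hp]
    · have k1 : r ^ γ ≤ ρ ^ (γ - 2 * a) * ((2 * ρ) ^ a * (r - s) ^ a) := by
        refine (pow_End hr h2).trans (mul_le_mul_of_nonneg_left ?_ (by positivity))
        rw [sq _ hr0.le, ← Real.mul_rpow (by positivity) hh]
        exact Real.rpow_le_rpow (by positivity) (by linarith) ha.le
      have k2 := (h s hs).trans (mul_le_mul_of_nonneg_left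
        (Real.rpow_le_rpow hs.1.le hsr hγ.le) hC)
      have k3 := norm_sub_le_norm_sub_add_norm_sub (z' r) e (z' s)
      rw [norm_sub_rev e] at k3
      nlinarith [mul_nonneg p1 hp, mul_nonneg p2 hp, h r hr, mul_le_mul_of_nonneg_left k1 hC]
  refine ⟨_, add_nonneg (add_nonneg p1 p2) p3, fun r hr => ?_, fun r hr s hs => ?_⟩
  · have hp : 0 ≤ r ^ a := Real.rpow_nonneg hr.1.le a
    have k1 := mul_le_mul_of_nonneg_left (pow_End hr (show a ≤ γ by linarith)) hC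
    nlinarith [mul_nonneg p2 hp, mul_nonneg p3 hp, h r hr]
  · rcases le_total s r with hsr | hsr
    · rw [abs_of_nonneg (sub_nonneg.2 hsr)]
      exact key r hr s hs hsr
    · rw [abs_sub_comm, abs_of_nonneg (sub_nonneg.2 hsr), norm_sub_rev]
      exact key s hs r hr hsr

theorem holder_up {A α C γ : ℝ} {e : ℂ} (hρ : 0 < ρ) (hα : 0 < α) (hγ : 0 < γ)
    (hz : Radial x ρ A α z z') (h : ∀ r ∈ Ioc 0 ρ, ‖z' r - e‖ ≤ C * r ^ γ) :
    ∃ α' C' : ℝ, 0 < α' ∧ 0 ≤ C' ∧ (∀ r ∈ Ioc 0 ρ, ‖z' r - e‖ ≤ C' * r ^ α') ∧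
      ∀ r ∈ Ioc 0 ρ, ∀ s ∈ Ioc 0 ρ, ‖z' r - z' s‖ ≤ C' * |r - s| ^ α' := by
  obtain ⟨a, ha, h1, h2⟩ : ∃ a : ℝ, 0 < a ∧ 2 * a ≤ α ∧ 2 * a ≤ γ :=
    ⟨min α γ / 2, half_pos (lt_min hα hγ), by linarith [min_le_left α γ],
      by linarith [min_le_right α γ]⟩
  obtain ⟨C', k⟩ := holder_up' hρ hγ ha h1 h2 hz h
  exact ⟨a, C', ha, k⟩

theorem zero_End {C β : ℝ} {e : ℂ} (hβ : 0 < β) (h0 : z 0 = x)
    (h : ∀ r ∈ Ioc 0 ρ, ‖z r - x - r * e‖ ≤ C * r ^ (1 + β)) :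
    HasDerivWithinAt z e (Icc 0 ρ) 0 := by
  rw [hasDerivWithinAt_iff_isLittleO, Asymptotics.isLittleO_iff]
  intro c hc
  have t : Tendsto (fun r : ℝ => C * r ^ β) (𝓝 0) (𝓝 (C * 0 ^ β)) :=
    ((Real.continuous_rpow_const hβ.le).tendsto 0).const_mul C
  rw [Real.zero_rpow hβ.ne', mul_zero] at t
  filter_upwards [nhdsWithin_le_nhds (t.eventually (gt_mem_nhds hc)), self_mem_nhdsWithin]
    with r k1 k2
  rcases k2.1.eq_or_lt with rfl | hr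
  · simp
  · have k3 := h r ⟨hr, k2.2⟩
    rw [Real.rpow_add hr, Real.rpow_one] at k3
    rw [h0, sub_zero, Complex.real_smul, Real.norm_of_nonneg hr.le]
    nlinarith [mul_le_mul_of_nonneg_right k1.le hr.le]

theorem end_arc' {A α C β a : ℝ} {e : ℂ} (hρ : 0 < ρ) (hα : 0 < α) (hβ : 0 < β) (he : ‖e‖ = 1)
    (ha : 0 < a) (a1 : 2 * a ≤ α) (a2 : 2 * a ≤ min (α * (β / 2)) (β / 2))
    (hz : Radial x ρ A α z z') (h : ∀ r ∈ Ioc 0 ρ, ‖z r - x - r * e‖ ≤ C * r ^ (1 + β)) :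
    ∀ α' ∈ Ioc 0 a, ∃ γ γ' : ℝ → ℂ, IsArc α' γ γ' ∧ γ 0 = x ∧
      γ' 0 = ρ * e ∧ γ '' Icc 0 1 = insert x (z '' Ioc 0 ρ) := by
  obtain ⟨C₁, -, h1⟩ := deriv_rate' hρ hα hβ hz h
  obtain ⟨C₂, hC, h2, h3⟩ := holder_up' hρ (lt_min (by positivity) (by positivity)) ha a1 a2 hz h1
  obtain ⟨Z, Z0, Z1⟩ : ∃ Z : ℝ → ℂ, Z 0 = x ∧ ∀ r, 0 < r → Z r = z r :=
    ⟨fun r => if r ≤ 0 then x else z r, if_pos le_rfl, fun r hr => if_neg hr.not_ge⟩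
  obtain ⟨Y, Y0, Y1⟩ : ∃ Y : ℝ → ℂ, Y 0 = e ∧ ∀ r, 0 < r → Y r = z' r :=
    ⟨fun r => if r ≤ 0 then e else z' r, if_pos le_rfl, fun r hr => if_neg hr.not_ge⟩
  have hm : MapsTo (fun t : ℝ => ρ * t) (Icc 0 1) (Icc 0 ρ) := fun t ht =>
    ⟨mul_nonneg hρ.le ht.1, mul_le_of_le_one_right hρ.le ht.2⟩
  have d1 : ∀ r ∈ Icc 0 ρ, HasDerivWithinAt Z (Y r) (Icc 0 ρ) r := by
    intro r hr
    rcases hr.1.eq_or_lt with rfl | h0
    · rw [Y0]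
      exact zero_End hβ Z0 fun r hr => by rw [Z1 r hr.1]; exact h r hr
    · rw [Y1 r h0]
      exact ((hz.deriv r ⟨h0, hr.2⟩).congr_of_eventuallyEq
        ((lt_mem_nhds h0).mono Z1)).hasDerivWithinAt
  have d2 : ∀ r ∈ Icc 0 ρ, 1 ≤ ‖Y r‖ ∧ ‖Z r - x‖ = r := by
    intro r hr
    rcases hr.1.eq_or_lt with rfl | h0
    · rw [Y0, Z0, he, sub_self, norm_zero]
      exact ⟨le_rfl, rfl⟩
    · rw [Y1 r h0, Z1 r h0]
      exact ⟨(radial_gen hz.norm hz.deriv ⟨h0, hr.2⟩).2, hz.norm r ⟨h0, hr.2⟩⟩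
  have d3 : ∀ r ∈ Icc 0 ρ, ∀ s ∈ Icc 0 ρ, ‖Y r - Y s‖ ≤ C₂ * |r - s| ^ a := by
    intro r hr s hs
    rcases hr.1.eq_or_lt with rfl | h0 <;> rcases hs.1.eq_or_lt with rfl | h0'
    · rw [sub_self, norm_zero]
      positivity
    · rw [Y0, Y1 s h0', norm_sub_rev, zero_sub, abs_neg, abs_of_pos h0']
      exact h2 s ⟨h0', hs.2⟩
    · rw [Y0, Y1 r h0, sub_zero, abs_of_pos h0]
      exact h2 r ⟨h0, hr.2⟩
    · rw [Y1 r h0, Y1 s h0']
      exact h3 r ⟨h0, hr.2⟩ s ⟨h0', hs.2⟩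
  refine fun α' hα' => ⟨fun t => Z (ρ * t), fun t => ρ * Y (ρ * t),
    ⟨fun t ht => ?_, fun t ht => ?_, fun s hs t ht hst => ?_, ρ * (C₂ * ρ ^ a),
      fun s hs t ht => ?_⟩, by simp only [mul_zero, Z0], by simp only [mul_zero, Y0], ?_⟩
  · have := (d1 _ (hm ht)).scomp t ((hasDerivAt_id' t).const_mul ρ).hasDerivWithinAt hm
    rw [mul_one, Complex.real_smul] at this
    exact this
  · exact mul_ne_zero (Complex.ofReal_ne_zero.2 hρ.ne')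
      (norm_pos_iff.1 (one_pos.trans_le (d2 _ (hm ht)).1))
  · have k1 := (d2 _ (hm hs)).2
    have k2 := (d2 _ (hm ht)).2
    rw [show Z (ρ * s) = Z (ρ * t) from hst, k2] at k1
    exact (mul_left_cancel₀ hρ.ne' k1).symm
  · rw [← mul_sub, norm_mul, Complex.norm_real, Real.norm_of_nonneg hρ.le, mul_assoc]
    refine mul_le_mul_of_nonneg_left ((d3 _ (hm hs) _ (hm ht)).trans ?_) hρ.le
    rw [← mul_sub, abs_mul, abs_of_pos hρ, Real.mul_rpow hρ.le (abs_nonneg _), ← mul_assoc]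
    refine mul_le_mul_of_nonneg_left (Real.rpow_le_rpow_of_exponent_ge' (abs_nonneg _) ?_
      hα'.1.le hα'.2) (by positivity)
    rw [abs_le]
    constructor <;> linarith [hs.1, hs.2, ht.1, ht.2]
  · rw [← image_image Z (fun t : ℝ => ρ * t), image_mul_left_Icc hρ.le zero_le_one, mul_zero,
      mul_one, ← Ioc_insert_left hρ.le, image_insert_eq, Z0,
      image_congr fun r hr => Z1 r (mem_Ioc.1 hr).1]

theorem exp_End {α β : ℝ} (hα : 0 < α) (hβ : 0 < β) :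
    ∃ a : ℝ, 0 < a ∧ 2 * a ≤ α ∧ 2 * a ≤ min (α * (β / 2)) (β / 2) :=
  ⟨min α (min (α * (β / 2)) (β / 2)) / 2,
    half_pos (lt_min hα (lt_min (by positivity) (by positivity))),
    by linarith [min_le_left α (min (α * (β / 2)) (β / 2))],
    by linarith [min_le_right α (min (α * (β / 2)) (β / 2))]⟩

theorem end_arc {A α C β : ℝ} {e : ℂ} (hρ : 0 < ρ) (hα : 0 < α) (hβ : 0 < β) (he : ‖e‖ = 1)
    (hz : Radial x ρ A α z z') (h : ∀ r ∈ Ioc 0 ρ, ‖z r - x - r * e‖ ≤ C * r ^ (1 + β)) :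
    ∃ α₀ : ℝ, 0 < α₀ ∧ ∀ α' ∈ Ioc 0 α₀, ∃ γ γ' : ℝ → ℂ, IsArc α' γ γ' ∧ γ 0 = x ∧
      γ' 0 = ρ * e ∧ γ '' Icc 0 1 = insert x (z '' Ioc 0 ρ) := by
  obtain ⟨a, ha, a1, a2⟩ := exp_End hα hβ
  exact ⟨a, ha, end_arc' hρ hα hβ he ha a1 a2 hz h⟩

end

end Vale.Agent.P128.T
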