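import Vale.Agent.P128.T.Defs

/-! P128 T/Dirn (TASK, about 200 lines): convergence of the direction.
`ν s = (z s - x) / s` has `‖ν‖ = 1`, `ν' = (z' - ν) / s`, `‖z' - ν‖² = ‖z'‖² - 1 ≤ 6 (1 - 1/‖z'‖)`. With `δ = r^(β/2)`: `‖z' - ν‖ ≤ ‖z' - ν‖² / (2δ) + δ / 2`, so
`‖ν s - ν r‖ ≤ ∫_{r/2}^r ‖ν'‖ ≤ C₁ r^(β/2)` for `s ∈ [r/2, r]`. `cauchy_of_le_geometric`-type argument along `r / 2^n` (`cauchySeq_of_le_geometric`, `dist_le_of_le_geometric_of_tendsto₀`);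
the limit does not depend on `r` (compare with the sequence `R / 2^n`, or show `‖ν s - ν r‖ ≤ C₂ r^(β/2)` for all `s ≤ r` by induction and use completeness of the filter `𝓝[>] 0`). Helper names end with `_Dirn`. -/

namespace Vale.Agent.P128.T

open MeasureTheory Set Metric Filter Topology
open scoped ENNReal ComplexConjugate

noncomputable section

variable {Ω K : Set ℂ} {ε ρ a b t c₀ : ℝ} {wk : Prop} {u : ℂ → ℝ} {x : ℂ} {z z' W : ℝ → ℂ}

theorem all_Dirn {ν : ℝ → ℂ} {R C β : ℝ} (hβ : 0 < β) (hC : 0 ≤ C)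
    (h : ∀ r ∈ Ioc 0 R, ∀ s ∈ Icc (r / 2) r, ‖ν s - ν r‖ ≤ C * r ^ β) (n : ℕ) :
    ∀ r ∈ Ioc 0 R, ∀ s ∈ Icc (r / 2 ^ n) r, ‖ν s - ν r‖ ≤ C / (1 - (1 / 2) ^ β) * r ^ β := by
  have hq : (1 / 2 : ℝ) ^ β < 1 := Real.rpow_lt_one (by norm_num) (by norm_num) hβ
  have hq0 : (0 : ℝ) < (1 / 2) ^ β := by positivity
  have hC' : 0 ≤ C / (1 - (1 / 2 : ℝ) ^ β) := div_nonneg hC (by linarith)
  have e : C / (1 - (1 / 2 : ℝ) ^ β) * (1 / 2) ^ β + C = C / (1 - (1 / 2) ^ β) := by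
    have : (1 - (1 / 2 : ℝ) ^ β) ≠ 0 := by linarith
    field_simp
    ring
  induction n with
  | zero =>
    intro r hr s hs
    obtain rfl : s = r := le_antisymm hs.2 (by simpa using hs.1)
    rw [sub_self, norm_zero]
    exact mul_nonneg hC' (Real.rpow_nonneg hr.1.le _)
  | succ n ih =>
    intro r hr s hs
    have h0 : 0 ≤ r ^ β := Real.rpow_nonneg hr.1.le _
    rcases le_total (r / 2) s with c | c
    · refine (h r hr s ⟨c, hs.2⟩).trans (mul_le_mul_of_nonneg_right ?_ h0)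
      rw [← e]
      exact le_add_of_nonneg_left (mul_nonneg hC' hq0.le)
    · have a1 := ih (r / 2) ⟨half_pos hr.1, (half_le_self hr.1.le).trans hr.2⟩ s
        ⟨by rw [div_div, ← pow_succ']; exact hs.1, c⟩
      have a2 := h r hr (r / 2) ⟨le_rfl, half_le_self hr.1.le⟩
      rw [div_eq_mul_one_div r 2, Real.mul_rpow hr.1.le (by norm_num), ← div_eq_mul_one_div r 2]
        at a1
      refine (norm_sub_le_norm_sub_add_norm_sub _ (ν (r / 2)) _).trans ?_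
      rw [← e]
      nlinarith

theorem dyadic_limit {ν : ℝ → ℂ} {R C β : ℝ} (hR : 0 < R) (hβ : 0 < β)
    (h : ∀ r ∈ Ioc 0 R, ∀ s ∈ Icc (r / 2) r, ‖ν s - ν r‖ ≤ C * r ^ β) :
    ∃ (e : ℂ) (C' : ℝ), 0 ≤ C' ∧ ∀ r ∈ Ioc 0 R, ‖ν r - e‖ ≤ C' * r ^ β := by
  have hC : 0 ≤ C := by
    have := h R ⟨hR, le_rfl⟩ R ⟨half_le_self hR.le, le_rfl⟩
    rw [sub_self, norm_zero] at this
    exact nonneg_of_mul_nonneg_left this (Real.rpow_pos_of_pos hR _)
  have hq : (1 / 2 : ℝ) ^ β < 1 := Real.rpow_lt_one (by norm_num) (by norm_num) hβ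
  have t0 : Tendsto (fun n : ℕ => R / 2 ^ n) atTop (𝓝 0) :=
    tendsto_const_nhds.div_atTop (tendsto_pow_atTop_atTop_of_one_lt one_lt_two)
  have all : ∀ r ∈ Ioc 0 R, ∀ s, 0 < s → s ≤ r →
      ‖ν s - ν r‖ ≤ C / (1 - (1 / 2) ^ β) * r ^ β := fun r hr s hs hsr => by
    obtain ⟨n, hn⟩ := (t0.eventually (ge_mem_nhds hs)).exists
    exact all_Dirn hβ hC h n r hr s
      ⟨(div_le_div_of_nonneg_right hr.2 (by positivity)).trans hn, hsr⟩
  have hc : CauchySeq fun n : ℕ => ν (R / 2 ^ n) := by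
    refine cauchySeq_of_le_tendsto_0' (fun n => C / (1 - (1 / 2) ^ β) * (R / 2 ^ n) ^ β)
      (fun n m hnm => ?_) ?_
    · rw [dist_comm, dist_eq_norm]
      exact all _ ⟨by positivity, div_le_self hR.le (one_le_pow₀ one_le_two)⟩ _ (by positivity)
        (div_le_div_of_nonneg_left hR.le (by positivity) (pow_le_pow_right₀ one_le_two hnm))
    · simpa [Real.zero_rpow hβ.ne'] using (t0.rpow_const (Or.inr hβ.le)).const_mul
        (C / (1 - (1 / 2) ^ β))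
  obtain ⟨e, he⟩ := cauchySeq_tendsto_of_complete hc
  refine ⟨e, C / (1 - (1 / 2) ^ β), div_nonneg hC (by linarith), fun r hr => ?_⟩
  rw [norm_sub_rev]
  refine le_of_tendsto (he.sub_const (ν r)).norm ?_
  filter_upwards [t0.eventually (ge_mem_nhds hr.1)] with n hn
  exact all r hr _ (by positivity) hn

theorem sq_Dirn {w v : ℂ} {r δ : ℝ} (hr : 0 < r) (hδ : 0 < δ) (hn : ‖w‖ = r) (h2 : ‖v‖ ≤ 2)
    (h1 : 1 ≤ ‖v‖) (hre : (conj w * v).re = r) :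
    ‖v * r - w‖ ≤ r * (3 / δ * (1 - 1 / ‖v‖) + δ / 2) := by
  have e : ‖v * r - w‖ ^ 2 = r ^ 2 * (‖v‖ ^ 2 - 1) := by
    have a1 : w.re ^ 2 + w.im ^ 2 = r ^ 2 := by
      rw [← hn, Complex.sq_norm, Complex.normSq_apply]
      ring
    simp only [Complex.mul_re, Complex.conj_re, Complex.conj_im] at hre
    rw [Complex.sq_norm, Complex.sq_norm, Complex.normSq_apply, Complex.normSq_apply]
    simp only [Complex.sub_re, Complex.sub_im, Complex.mul_re, Complex.mul_im, Complex.ofReal_re,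
      Complex.ofReal_im]
    linear_combination a1 - 2 * r * hre
  have a2 : ‖v‖ ^ 2 - 1 ≤ 6 * (1 - 1 / ‖v‖) := by
    have : 0 < ‖v‖ := by linarith
    rw [one_sub_div this.ne', ← mul_div_assoc, le_div_iff₀ this]
    nlinarith [mul_nonneg (sub_nonneg.2 h1) (sub_nonneg.2 h2), mul_nonneg (sub_nonneg.2 h1)
      (mul_nonneg (sub_nonneg.2 h2) this.le)]
  generalize ‖v * r - w‖ = A at e ⊢
  generalize 1 - 1 / ‖v‖ = B at a2 ⊢
  have a3 : A ^ 2 ≤ r ^ 2 * (6 * B) := by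
    rw [e]
    exact mul_le_mul_of_nonneg_left a2 (sq_nonneg _)
  have a4 : r * (3 / δ * B + δ / 2) = (r ^ 2 * (6 * B) + (r * δ) ^ 2) / (2 * (r * δ)) := by
    field_simp
    ring
  rw [a4, le_div_iff₀ (by positivity)]
  nlinarith [sq_nonneg (A - r * δ)]

theorem step_Dirn {R C β : ℝ} (hn : ∀ r ∈ Ioc 0 R, ‖z r - x‖ = r)
    (hd : ∀ r ∈ Ioc 0 R, HasDerivAt z (z' r) r) (hb : ∀ r ∈ Ioc 0 R, ‖z' r‖ ≤ 2)
    (hc : ContinuousOn z' (Ioc 0 R))
    (hr : ∀ r ∈ Ioc 0 R, (conj (z r - x) * z' r).re = r ∧ 1 ≤ ‖z' r‖)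
    (h : ∀ r ∈ Ioc 0 R, ∫ s in (r / 2)..r, (1 - 1 / ‖z' s‖) ≤ C * r ^ (1 + β)) :
    ∀ r ∈ Ioc 0 R, ∀ s ∈ Icc (r / 2) r,
      ‖(z s - x) / s - (z r - x) / r‖ ≤ (6 * C + 1 / 2) * r ^ (β / 2) := by
  intro r hr0 s hs
  have r0 := hr0.1
  have sub : Icc (r / 2) r ⊆ Ioc 0 R := fun σ hσ => ⟨(half_pos r0).trans_le hσ.1, hσ.2.trans hr0.2⟩
  have sub' : Icc s r ⊆ Icc (r / 2) r := Icc_subset_Icc_left hs.1
  have hδ : 0 < r ^ (β / 2) := Real.rpow_pos_of_pos r0 _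
  have e1 : r ^ (1 + β) = r * (r ^ (β / 2) * r ^ (β / 2)) := by
    rw [← Real.rpow_add r0, Real.rpow_add r0, Real.rpow_one, add_halves]
  have h1 := h r hr0
  rw [e1] at h1
  generalize r ^ (β / 2) = δ at hδ h1 ⊢
  have ne : ∀ σ ∈ Ioc 0 R, (σ : ℂ) ≠ 0 := fun σ hσ => by exact_mod_cast hσ.1.ne'
  have der : ∀ σ ∈ Ioc 0 R, HasDerivAt (fun σ : ℝ => (z σ - x) / σ)
      ((z' σ * σ - (z σ - x) * 1) / σ ^ 2) σ := fun σ hσ =>
    ((hd σ hσ).sub_const x).div Complex.ofRealCLM.hasDerivAt (ne σ hσ)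
  have cz : ContinuousOn z (Ioc 0 R) := fun σ hσ => (hd σ hσ).continuousAt.continuousWithinAt
  have co : ContinuousOn (fun σ : ℝ => (σ : ℂ)) (Ioc 0 R) := Complex.continuous_ofReal.continuousOn
  have c1 : ContinuousOn (fun σ : ℝ => (z' σ * σ - (z σ - x) * 1) / σ ^ 2) (Ioc 0 R) :=
    ((hc.mul co).sub ((cz.sub continuousOn_const).mul continuousOn_const)).div (co.pow 2)
      fun σ hσ => pow_ne_zero _ (ne σ hσ)
  have c2 : ContinuousOn (fun σ => 1 - 1 / ‖z' σ‖) (Ioc 0 R) :=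
    continuousOn_const.sub (continuousOn_const.div hc.norm fun σ hσ =>
      (zero_lt_one.trans_le (hr σ hσ).2).ne')
  have i2 : IntervalIntegrable (fun σ => 1 - 1 / ‖z' σ‖) volume (r / 2) r :=
    (c2.mono sub).intervalIntegrable_of_Icc (half_le_self r0.le)
  have i3 : IntervalIntegrable (fun σ => 6 / (r * δ) * (1 - 1 / ‖z' σ‖) + δ / r) volume (r / 2) r :=
    (i2.const_mul _).add intervalIntegrable_const
  have pos : ∀ σ ∈ Ioc 0 R, 0 ≤ 1 - 1 / ‖z' σ‖ := fun σ hσ =>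
    sub_nonneg.2 ((div_le_one (zero_lt_one.trans_le (hr σ hσ).2)).2 (hr σ hσ).2)
  rw [norm_sub_rev, ← intervalIntegral.integral_eq_sub_of_hasDerivAt
    (fun σ hσ => der σ (sub (sub' (by rwa [uIcc_of_le hs.2] at hσ))))
    ((c1.mono (sub'.trans sub)).intervalIntegrable_of_Icc hs.2)]
  refine (intervalIntegral.norm_integral_le_of_norm_le hs.2 (ae_of_all _ fun σ hσ => ?_)
    (i3.mono_set (by rw [uIcc_of_le hs.2, uIcc_of_le (half_le_self r0.le)]; exact sub'))).trans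
    ((intervalIntegral.integral_mono_interval hs.1 hs.2 le_rfl ?_ i3).trans ?_)
  · have m := sub' (Ioc_subset_Icc_self hσ)
    have m' := sub m
    have s0 := m'.1
    have a1 := sq_Dirn s0 hδ (hn σ m') (hb σ m') (hr σ m').2 (hr σ m').1
    have a2 := pos σ m'
    rw [mul_one, norm_div, norm_pow, Complex.norm_real, Real.norm_of_nonneg s0.le,
      div_le_iff₀ (by positivity)]
    refine a1.trans ?_
    generalize 1 - 1 / ‖z' σ‖ = B at a2 ⊢
    have e : (6 / (r * δ) * B + δ / r) * σ ^ 2 = σ * (3 / δ * B + δ / 2) * (σ / (r / 2)) := by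
      field_simp
      ring
    rw [e]
    exact le_mul_of_one_le_right (by positivity) ((one_le_div (half_pos r0)).2 m.1)
  · refine (ae_restrict_iff' measurableSet_Ioc).2 (ae_of_all _ fun σ hσ => ?_)
    have := pos σ (sub (Ioc_subset_Icc_self hσ))
    positivity
  · rw [intervalIntegral.integral_add (i2.const_mul _) intervalIntegrable_const,
      intervalIntegral.integral_const_mul, intervalIntegral.integral_const, smul_eq_mul]
    have a1 := mul_le_mul_of_nonneg_left h1 (show 0 ≤ 6 / (r * δ) by positivity)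
    have e2 : 6 / (r * δ) * (C * (r * (δ * δ))) = 6 * C * δ := by field_simp
    have e3 : (r - r / 2) * (δ / r) = 1 / 2 * δ := by
      field_simp
      ring
    linarith

theorem direction {R C β : ℝ} (hR : 0 < R) (hβ : 0 < β) (hn : ∀ r ∈ Ioc 0 R, ‖z r - x‖ = r)
    (hd : ∀ r ∈ Ioc 0 R, HasDerivAt z (z' r) r) (hb : ∀ r ∈ Ioc 0 R, ‖z' r‖ ≤ 2)
    (hc : ContinuousOn z' (Ioc 0 R)) (hr : ∀ r ∈ Ioc 0 R, (conj (z r - x) * z' r).re = r ∧ 1 ≤ ‖z' r‖)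
    (h : ∀ r ∈ Ioc 0 R, ∫ s in (r / 2)..r, (1 - 1 / ‖z' s‖) ≤ C * r ^ (1 + β)) :
    ∃ (e : ℂ) (C' : ℝ), ‖e‖ = 1 ∧ 0 ≤ C' ∧
      ∀ r ∈ Ioc 0 R, ‖z r - x - r * e‖ ≤ C' * r ^ (1 + β / 2) := by
  obtain ⟨e, C', h0, he⟩ := dyadic_limit (ν := fun s : ℝ => (z s - x) / s) hR (half_pos hβ)
    (step_Dirn hn hd hb hc hr h)
  have n1 : ∀ r ∈ Ioc 0 R, ‖(z r - x) / r‖ = 1 := fun r hr0 => by
    rw [norm_div, hn r hr0, Complex.norm_real, Real.norm_of_nonneg hr0.1.le, div_self hr0.1.ne']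
  refine ⟨e, C', ?_, h0, fun r hr0 => ?_⟩
  · have t0 : Tendsto (fun r : ℝ => C' * r ^ (β / 2)) (𝓝[>] 0) (𝓝 0) := by
      simpa [Real.zero_rpow (half_pos hβ).ne'] using
        ((tendsto_id.mono_left (nhdsWithin_le_nhds (s := Ioi (0 : ℝ)) (a := 0))).rpow_const
          (Or.inr (half_pos hβ).le)).const_mul C'
    have : |1 - ‖e‖| ≤ 0 := ge_of_tendsto t0 (by
      filter_upwards [Ioc_mem_nhdsGT hR] with r hr0
      rw [← n1 r hr0]
      exact (abs_norm_sub_norm_le _ _).trans (he r hr0))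
    linarith [sub_eq_zero.1 (abs_nonpos_iff.1 this)]
  · have ne : (r : ℂ) ≠ 0 := by exact_mod_cast hr0.1.ne'
    have e1 : z r - x - r * e = r * ((z r - x) / r - e) := by field_simp
    rw [e1, norm_mul, Complex.norm_real, Real.norm_of_nonneg hr0.1.le, Real.rpow_add hr0.1,
      Real.rpow_one, mul_left_comm]
    exact mul_le_mul_of_nonneg_left (he r hr0) hr0.1.le

end

end Vale.Agent.P128.T
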