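import Vale.Agent.P128.T.Defs

/-! P128 T/Decay (TASK, about 200 lines): pure real analysis.
`iter`: choose `β ≤ 1/8` with `θ λ^β < 1`; induction on `n` for `r ∈ (R / λ^(n+1), R / λ^n]` of `e r ≤ C' r^β`.
`decay`: `f s = D s - s`. `a → 0` in `h1` gives `f b ≥ - C b √√b`; `h1` gives `f s ≥ f a - C b √√b` on `[a, b]`. With `b = λ a`, `λ = 15/14`: `∫_a^b f s / s ≥ (f a - err) (b - a) / b` if `f a ≥ err`
(otherwise `f a < err` is already small), so `(7 + 8/15) f a ≤ 7 f b + 2 err`, and `e = f / id` has `e a ≤ θ e b + C' √√a`, `θ = 225/226`. Then `h2` on `[r/2, r]`. Helper names end with `_Decay`. -/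

namespace Vale.Agent.P128.T

open MeasureTheory Set Metric Filter Topology
open scoped ENNReal ComplexConjugate

noncomputable section

variable {Ω K : Set ℂ} {ε ρ a b t c₀ : ℝ} {wk : Prop} {u : ℂ → ℝ} {x : ℂ} {z z' W : ℝ → ℂ}

theorem root_Decay {r R β : ℝ} (hr : 0 < r) (h : r ≤ R) (hβ : β ≤ 1 / 4) :
    √(√r) ≤ R ^ (1 / 4 - β) * r ^ β := by
  have e : √(√r) = r ^ (1 / 4 - β) * r ^ β := by
    rw [Real.sqrt_eq_rpow, Real.sqrt_eq_rpow, ← Real.rpow_mul hr.le, ← Real.rpow_add hr]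
    norm_num
  rw [e]
  exact mul_le_mul_of_nonneg_right (Real.rpow_le_rpow hr.le h (by linarith))
    (Real.rpow_pos_of_pos hr β).le

theorem iter {e : ℝ → ℝ} {R C θ l : ℝ} (hR : 0 < R) (hC : 0 ≤ C) (hθ : 0 < θ) (hθ1 : θ < 1)
    (hl : 1 < l)
    (hb : ∀ r ∈ Ioc 0 R, e r ≤ C) (h : ∀ r, 0 < r → l * r ≤ R → e r ≤ θ * e (l * r) + C * √(√r)) :
    ∃ β C' : ℝ, 0 < β ∧ β ≤ 1 / 8 ∧ 0 ≤ C' ∧ ∀ r ∈ Ioc 0 R, e r ≤ C' * r ^ β := by
  have hl0 : 0 < l := by linarith
  obtain ⟨β, hβ0, hβ1, hq⟩ : ∃ β : ℝ, 0 < β ∧ β ≤ 1 / 8 ∧ θ * l ^ β < 1 := by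
    have hc : ContinuousAt (fun β : ℝ => θ * l ^ β) 0 :=
      continuousAt_const.mul (Real.continuousAt_const_rpow hl0.ne')
    have h1 : ∀ᶠ β : ℝ in 𝓝 0, θ * l ^ β < 1 :=
      hc.eventually_lt continuousAt_const (by simpa using hθ1)
    obtain ⟨β, h2, h3⟩ := ((h1.filter_mono nhdsWithin_le_nhds).and
      (Ioc_mem_nhdsGT (show (0 : ℝ) < 1 / 8 by norm_num))).exists
    exact ⟨β, h3.1, h3.2, h2⟩
  obtain ⟨C', h0, hA, hB⟩ : ∃ C' : ℝ, 0 ≤ C' ∧ C ≤ C' * (R / l) ^ β ∧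
      C * R ^ (1 / 4 - β) ≤ (1 - θ * l ^ β) * C' := by
    have p1 : 0 < (R / l) ^ β := by positivity
    have p2 : 0 < 1 - θ * l ^ β := by linarith
    have p3 : 0 ≤ C / (R / l) ^ β := by positivity
    have p4 : 0 ≤ C * R ^ (1 / 4 - β) / (1 - θ * l ^ β) := by positivity
    refine ⟨C / (R / l) ^ β + C * R ^ (1 / 4 - β) / (1 - θ * l ^ β), by positivity, ?_, ?_⟩
    · rw [add_mul, div_mul_cancel₀ _ p1.ne']
      nlinarith [mul_nonneg p4 p1.le]
    · rw [mul_add, mul_div_cancel₀ _ p2.ne']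
      nlinarith [mul_nonneg p3 p2.le]
  have base : ∀ r, R / l < r → r ≤ R → e r ≤ C' * r ^ β := fun r h1 h2 =>
    ((hb r ⟨(div_pos hR hl0).trans h1, h2⟩).trans hA).trans (mul_le_mul_of_nonneg_left
      (Real.rpow_le_rpow (div_pos hR hl0).le h1.le hβ0.le) h0)
  have ind : ∀ n : ℕ, ∀ r, R / l ^ n < r → r ≤ R → e r ≤ C' * r ^ β := by
    intro n
    induction n with
    | zero => exact fun r h1 h2 => absurd h2 (by simpa using h1)
    | succ n ih =>
      intro r h1 h2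
      have hr : 0 < r := (by positivity : 0 < R / l ^ (n + 1)).trans h1
      rcases le_or_gt (l * r) R with h3 | h3
      · have h4 := ih (l * r) (by
          rw [div_lt_iff₀ (by positivity)] at h1 ⊢
          rw [pow_succ] at h1
          linarith) h3
        rw [Real.mul_rpow hl0.le hr.le] at h4
        have h5 := mul_le_mul_of_nonneg_left (root_Decay hr h2 (hβ1.trans (by norm_num))) hC
        have h6 := mul_le_mul_of_nonneg_left h4 hθ.le
        have h7 := mul_le_mul_of_nonneg_right hB (Real.rpow_pos_of_pos hr β).le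
        have h8 := h r hr h3
        nlinarith
      · exact base r (by rw [div_lt_iff₀ hl0]; linarith) h2
  refine ⟨β, C', hβ0, hβ1, h0, fun r hr => ?_⟩
  obtain ⟨n, hn⟩ := pow_unbounded_of_one_lt (R / r) hl
  refine ind n r ?_ hr.2
  rw [div_lt_iff₀ hr.1] at hn
  rw [div_lt_iff₀ (by positivity)]
  linarith

theorem int_Decay {D : ℝ → ℝ} {R a b c : ℝ} (hD : MonotoneOn D (Ioc 0 R)) (ha : 0 < a)
    (hab : a ≤ b) (hb : b ≤ R) (h : ∀ s ∈ Icc a b, c ≤ D s / s) :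
    (b - a) * c ≤ ∫ s in a..b, D s / s := by
  have i1 : IntervalIntegrable D volume a b := MonotoneOn.intervalIntegrable (hD.mono (by
    rw [uIcc_of_le hab]
    exact fun s hs => ⟨ha.trans_le hs.1, hs.2.trans hb⟩))
  have i2 : IntervalIntegrable (fun s => D s * s⁻¹) volume a b := i1.mul_continuousOn (by
    rw [uIcc_of_le hab]
    exact continuousOn_id.inv₀ fun s hs => (ha.trans_le hs.1).ne')
  have h1 := intervalIntegral.integral_mono_on hab (f := fun _ => c) intervalIntegrable_const i2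
    fun s hs => by simpa only [div_eq_mul_inv] using h s hs
  simpa only [intervalIntegral.integral_const, smul_eq_mul, div_eq_mul_inv] using h1

theorem step_Decay {D m : ℝ → ℝ} {R C : ℝ} (hC : 0 ≤ C) (hD : MonotoneOn D (Ioc 0 R))
    (hm : ∀ a b, 0 < a → a ≤ b → b ≤ R → 0 ≤ ∫ s in a..b, m s)
    (h1 : ∀ a b, 0 < a → a ≤ b → b ≤ R → b - a - C * b * √(√b) ≤ D b - D a)
    (h2 : ∀ a b, 0 < a → a ≤ b → b ≤ R → 8 * (∫ s in a..b, D s / s) + ∫ s in a..b, m s ≤
      7 * (D b - D a) + (b - a) + C * b * √(√b)) {r : ℝ} (hr : 0 < r) (hb : 15 / 14 * r ≤ R)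
    (low : -(C * (15 / 14 * r) * √(√(15 / 14 * r))) ≤ D (15 / 14 * r) - 15 / 14 * r) :
    (D r - r) / r ≤ 225 / 226 * ((D (15 / 14 * r) - 15 / 14 * r) / (15 / 14 * r)) +
      (5 * C + 7) * √(√r) := by
  have hab : r ≤ 15 / 14 * r := by linarith
  have hs : √(√(15 / 14 * r)) ≤ 2 * √(√r) := by
    have e1 : √(15 / 14 * r) ≤ 4 * √r := by
      rw [Real.sqrt_le_left (by positivity), mul_pow, Real.sq_sqrt hr.le]
      linarith
    rw [Real.sqrt_le_left (by positivity), mul_pow, Real.sq_sqrt (Real.sqrt_nonneg _)]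
    linarith
  obtain ⟨E, hE⟩ : ∃ E, E = C * (15 / 14 * r) * √(√(15 / 14 * r)) := ⟨_, rfl⟩
  have hE0 : 0 ≤ E := by rw [hE]; positivity
  have hE1 : E ≤ 15 / 7 * (C * √(√r) * r) := by
    have := mul_le_mul_of_nonneg_left hs (show 0 ≤ C * (15 / 14 * r) by positivity)
    linarith
  have hq : 0 ≤ √(√r) * r := by positivity
  have e : 225 / 226 * ((D (15 / 14 * r) - 15 / 14 * r) / (15 / 14 * r)) + (5 * C + 7) * √(√r) =
      (105 / 113 * (D (15 / 14 * r) - 15 / 14 * r) + 5 * (C * √(√r) * r) + 7 * (√(√r) * r)) / r := by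
    field_simp
    ring
  rw [e]
  refine div_le_div_of_nonneg_right ?_ hr.le
  rw [← hE] at low
  rcases le_total E (D r - r) with h | h
  · have k1 := h2 r _ hr hab hb
    have k2 := hm r _ hr hab hb
    have k3 := int_Decay hD hr hab hb (c := 1 + (D r - r - E) / (15 / 14 * r)) fun s hs' => by
      have hs0 : 0 < s := hr.trans_le hs'.1
      have j1 := h1 r s hr hs'.1 (hs'.2.trans hb)
      have j2 : C * s * √(√s) ≤ E := by
        rw [hE]
        gcongr <;> exact hs'.2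
      have j3 : (D r - r - E) / (15 / 14 * r) ≤ (D r - r - E) / s :=
        div_le_div_of_nonneg_left (by linarith) hs0 hs'.2
      have j4 : 1 + (D r - r - E) / s ≤ D s / s := by
        rw [one_add_div hs0.ne']
        exact div_le_div_of_nonneg_right (by linarith) hs0.le
      linarith
    have e2 : (15 / 14 * r - r) * (1 + (D r - r - E) / (15 / 14 * r)) =
        1 / 14 * r + 1 / 15 * (D r - r - E) := by
      field_simp
      ring
    rw [e2] at k3
    rw [← hE] at k1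
    linarith
  · linarith

theorem decay {D m : ℝ → ℝ} {R C : ℝ} (hR : 0 < R) (hC : 0 ≤ C)
    (h0 : ∀ r ∈ Ioc 0 R, 0 ≤ D r ∧ D r ≤ 8 * r) (hD : MonotoneOn D (Ioc 0 R))
    (hm : ∀ a b, 0 < a → a ≤ b → b ≤ R → 0 ≤ ∫ s in a..b, m s)
    (h1 : ∀ a b, 0 < a → a ≤ b → b ≤ R → b - a - C * b * √(√b) ≤ D b - D a)
    (h2 : ∀ a b, 0 < a → a ≤ b → b ≤ R → 8 * (∫ s in a..b, D s / s) + ∫ s in a..b, m s ≤
      7 * (D b - D a) + (b - a) + C * b * √(√b)) :
    ∃ β C' : ℝ, 0 < β ∧ 0 ≤ C' ∧ ∀ r ∈ Ioc 0 R, |D r - r| ≤ C' * r ^ (1 + β) ∧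
      ∫ s in (r / 2)..r, m s ≤ C' * r ^ (1 + β) := by
  have low : ∀ b ∈ Ioc 0 R, -(C * b * √(√b)) ≤ D b - b := by
    intro b hb
    refine le_of_forall_pos_le_add fun η hη => ?_
    have k1 := h1 (min η b) b (lt_min hη hb.1) (min_le_right _ _) hb.2
    have k2 := (h0 (min η b) ⟨lt_min hη hb.1, (min_le_right _ _).trans hb.2⟩).1
    have k3 := min_le_left η b
    linarith
  obtain ⟨β, C', hβ0, hβ1, hC', hI⟩ := iter (e := fun r => (D r - r) / r) (R := R)
    (C := 5 * C + 7) (θ := 225 / 226) (l := 15 / 14) hR (by positivity) (by norm_num) (by norm_num)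
    (by norm_num) (fun r hr => by
      rw [div_le_iff₀ hr.1]
      nlinarith [(h0 r hr).2, mul_nonneg hC hr.1.le])
    fun r hr hb => step_Decay hC hD hm h1 h2 hr hb (low _ ⟨by positivity, hb⟩)
  obtain ⟨C2, p0, p1, p2⟩ : ∃ C2 : ℝ, 0 ≤ C2 ∧ C' ≤ C2 ∧ C * R ^ (1 / 4 - β) ≤ C2 := by
    have : 0 ≤ C * R ^ (1 / 4 - β) := by positivity
    exact ⟨C' + C * R ^ (1 / 4 - β), by positivity, by linarith, by linarith⟩
  have herr : ∀ r ∈ Ioc 0 R, C * r * √(√r) ≤ C2 * (r * r ^ β) := by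
    intro r hr
    have k1 := mul_le_mul_of_nonneg_left (root_Decay hr.1 hr.2 (hβ1.trans (by norm_num)))
      (mul_nonneg hC hr.1.le)
    have k2 := mul_le_mul_of_nonneg_right p2
      (mul_nonneg hr.1.le (Real.rpow_pos_of_pos hr.1 β).le)
    linarith
  have habs : ∀ r ∈ Ioc 0 R, |D r - r| ≤ C2 * (r * r ^ β) := by
    intro r hr
    have k1 := hI r hr
    rw [div_le_iff₀ hr.1] at k1
    have k2 := mul_le_mul_of_nonneg_right p1
      (mul_nonneg hr.1.le (Real.rpow_pos_of_pos hr.1 β).le)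
    exact abs_le.2 ⟨by linarith [low r hr, herr r hr], by linarith⟩
  refine ⟨β, 19 * C2, hβ0, by positivity, fun r hr => ?_⟩
  have hr0 := hr.1
  have hp : 0 ≤ C2 * (r * r ^ β) := by positivity
  rw [Real.rpow_add hr0, Real.rpow_one]
  refine ⟨by linarith [habs r hr], ?_⟩
  have k1 := h2 (r / 2) r (half_pos hr0) (half_le_self hr0.le) hr.2
  have k2 := int_Decay hD (half_pos hr0) (half_le_self hr0.le) hr.2 (c := 1 - C2 * r ^ β)
    fun s hs => by
      have hs0 : 0 < s := (half_pos hr0).trans_le hs.1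
      have j1 := (abs_le.1 (habs s ⟨hs0, hs.2.trans hr.2⟩)).1
      have j2 := mul_le_mul_of_nonneg_left (Real.rpow_le_rpow hs0.le hs.2 hβ0.le)
        (mul_nonneg p0 hs0.le)
      rw [le_div_iff₀ hs0]
      linarith
  have k3 := (abs_le.1 (habs r hr)).2
  have k4 := (abs_le.1 (habs (r / 2) ⟨half_pos hr0, (half_le_self hr0.le).trans hr.2⟩)).1
  have k5 : C2 * (r / 2 * (r / 2) ^ β) ≤ C2 * (r * r ^ β) := by
    gcongr <;> linarith
  have k6 := herr r hr
  linarith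

end

end Vale.Agent.P128.T
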