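import Vale.Agent.P128.T.Core
import Vale.Agent.P128.T.Decay
import Vale.Agent.P128.T.Dirn
import Vale.Agent.P128.T.End

/-! P128 T/Main (helper11): the crack tip theorem. `decay` on `(0, ρ/2]` with `low`, `main_ineq`, then `direction`. -/

namespace Vale.Agent.P128.T

open MeasureTheory Set Metric Filter Topology
open scoped ENNReal ComplexConjugate

noncomputable section

variable {Ω K : Set ℂ} {ε ρ a b t c₀ : ℝ} {wk : Prop} {u : ℂ → ℝ} {x : ℂ} {z z' W : ℝ → ℂ}

theorem cont_Main {A α : ℝ} (hα : 0 < α) (hz : Radial x ρ A α z z') :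
    ContinuousOn z' (Ioc 0 ρ) := by
  intro r hr
  have hc : ContinuousAt (fun s : ℝ => |A| * (2 * |s - r| / r) ^ α) r :=
    continuousAt_const.mul (ContinuousAt.rpow_const (by fun_prop) (Or.inr hα.le))
  have h0 : Tendsto (fun s : ℝ => |A| * (2 * |s - r| / r) ^ α) (𝓝[Ioc 0 ρ] r) (𝓝 0) := by
    have := hc.tendsto.mono_left (nhdsWithin_le_nhds (s := Ioc 0 ρ))
    simpa [Real.zero_rpow hα.ne'] using this
  refine tendsto_iff_norm_sub_tendsto_zero.2 (squeeze_zero' (Eventually.of_forall fun _ =>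
    norm_nonneg _) ?_ h0)
  have hn : Ioo (r / 2) (2 * r) ∈ 𝓝[Ioc 0 ρ] r :=
    nhdsWithin_le_nhds (Ioo_mem_nhds (by linarith [hr.1]) (by linarith [hr.1]))
  filter_upwards [hn, self_mem_nhdsWithin] with s hs hs'
  have key : ∀ v w : ℝ, 0 ≤ v → v ≤ w → A * v ^ α ≤ |A| * w ^ α := fun v w h1 h2 =>
    mul_le_mul (le_abs_self A) (Real.rpow_le_rpow h1 h2 hα.le) (Real.rpow_nonneg h1 _)
      (abs_nonneg A)
  rcases le_total s r with e | e
  · rw [norm_sub_rev]
    refine (hz.holder r hr s ⟨hs.1.le, e⟩).trans (key _ _ (div_nonneg (by linarith) hr.1.le) ?_)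
    rw [abs_of_nonpos (by linarith)]
    exact div_le_div_of_nonneg_right (by linarith) hr.1.le
  · refine (hz.holder s hs' r ⟨by linarith [hs.2], e⟩).trans
      (key _ _ (div_nonneg (by linarith) hs'.1.le) ?_)
    rw [abs_of_nonneg (by linarith)]
    exact div_le_div₀ (by linarith) (by linarith) hr.1 e

theorem tip_of_radial {A α : ℝ} (h : AM0 Ω ε wk u K) (hρ : 0 < ρ) (hs : closedBall x ρ ⊆ Ω)
    (hK : K ∩ closedBall x ρ = insert x (z '' Ioc 0 ρ)) (hα : 0 < α)
    (hz : Radial x ρ A α z z') : Tip Ω ε wk u K x ρ z z' :=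
  ⟨h, hρ, hs, hK, hz.norm, hz.deriv, hz.bound, cont_Main hα hz⟩

theorem k_Main (hρ : 0 < ρ) (c b : ℝ) : c * b * √(√(b / ρ)) = c / √(√ρ) * b * √(√b) := by
  rw [Real.sqrt_div' _ hρ.le, Real.sqrt_div' _ (Real.sqrt_nonneg ρ)]
  ring

theorem Tip.core (h : Tip Ω ε wk u K x ρ z z') : ∃ (e : ℂ) (β C : ℝ), ‖e‖ = 1 ∧ 0 < β ∧ 0 ≤ C ∧
    (∀ r ∈ Ioc 0 ρ, ‖z r - x - r * e‖ ≤ C * r ^ (1 + β)) ∧
    Tendsto (fun r => D u K x r / r) (𝓝[>] 0) (𝓝 1) := by
  have hρ := h.pos
  have hR : 0 < ρ / 2 := by linarith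
  have hsub : Ioc 0 (ρ / 2) ⊆ Ioc 0 ρ := Ioc_subset_Ioc_right (by linarith)
  obtain ⟨β, C, hβ, hC, hd⟩ := decay (D := D u K x) (m := fun s => 1 - 1 / ‖z' s‖)
    (C := 6011 / √(√ρ)) hR (by positivity) (fun r hr => h.D_le (hsub hr))
    (h.mono.mono fun r hr => (hsub hr).2)
    (fun a b ha hab hb => intervalIntegral.integral_nonneg hab fun s hs => by
      have := (h.radial (hsub ⟨ha.trans_le hs.1, hs.2.trans hb⟩)).2
      exact sub_nonneg.2 ((div_le_one (by linarith)).2 this))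
    (fun a b ha hab hb => by
      have h1 := h.low ha hab (by linarith)
      have h2 : 0 ≤ b * √(√(b / ρ)) := mul_nonneg (by linarith) (Real.sqrt_nonneg _)
      rw [← k_Main hρ]
      linarith)
    (fun a b ha hab hb => by
      rw [← k_Main hρ]
      exact h.main_ineq ha hab hb)
  obtain ⟨e, C', he, hC', hz⟩ := direction hR hβ (fun r hr => h.norm r (hsub hr))
    (fun r hr => h.deriv r (hsub hr)) (fun r hr => h.bound r (hsub hr)) (h.cont.mono hsub)
    (fun r hr => h.radial (hsub hr)) fun r hr => (hd r hr).2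
  have hp : 0 < (ρ / 2) ^ (β / 2) := Real.rpow_pos_of_pos hR _
  refine ⟨e, β / 2, C' + 2 / (ρ / 2) ^ (β / 2), he, by linarith, by positivity, fun r hr => ?_, ?_⟩
  · have h1 : 0 ≤ r ^ (1 + β / 2) := Real.rpow_nonneg hr.1.le _
    have h2 : 0 ≤ 2 / (ρ / 2) ^ (β / 2) := by positivity
    rcases le_total r (ρ / 2) with h3 | h3
    · exact (hz r ⟨hr.1, h3⟩).trans (mul_le_mul_of_nonneg_right (by linarith) h1)
    · have h4 : ‖z r - x - r * e‖ ≤ 2 * r := by
        refine (_root_.norm_sub_le _ _).trans ?_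
        rw [h.norm r hr, norm_mul, he, Complex.norm_real, Real.norm_of_nonneg hr.1.le]
        linarith
      have h5 : (ρ / 2) ^ (β / 2) ≤ r ^ (β / 2) := Real.rpow_le_rpow hR.le h3 (by linarith)
      have h6 : 2 * r ≤ 2 / (ρ / 2) ^ (β / 2) * r ^ (1 + β / 2) := by
        rw [Real.rpow_add hr.1, Real.rpow_one, div_mul_eq_mul_div, le_div_iff₀ hp]
        nlinarith [mul_le_mul_of_nonneg_left h5 hr.1.le]
      nlinarith [mul_nonneg hC' h1]
  · have hc : ContinuousAt (fun s : ℝ => C * s ^ β) 0 :=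
      continuousAt_const.mul (Real.continuousAt_rpow_const _ _ (Or.inr hβ.le))
    have h0 : Tendsto (fun s : ℝ => C * s ^ β) (𝓝[>] 0) (𝓝 0) := by
      have := hc.tendsto.mono_left (nhdsWithin_le_nhds (s := Ioi 0))
      simpa [Real.zero_rpow hβ.ne'] using this
    refine tendsto_iff_norm_sub_tendsto_zero.2 (squeeze_zero' (Eventually.of_forall fun _ =>
      norm_nonneg _) ?_ h0)
    filter_upwards [Ioc_mem_nhdsGT hR] with r hr
    have h1 := (hd r hr).1
    rw [Real.rpow_add hr.1, Real.rpow_one] at h1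
    rw [Real.norm_eq_abs, div_sub_one hr.1.ne', abs_div, abs_of_pos hr.1, div_le_iff₀ hr.1]
    linarith

end

end Vale.Agent.P128.T
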