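import Vale.Agent.P128.T.Polar
import Vale.Agent.P128.TA2.Main

/-! P128 T/Basic (TASK, about 200 lines): elementary facts. Use TA1 and TA2: `fderiv_eq_dz`, `norm_dz`, `smooth_of_holo`, `AM0.upper_real`, `AM0.vol`.
Spheres and points are null (`Measure.addHaar_sphere`). `measurable_fderiv`, `ofReal_integral_eq_lintegral_ofReal`, `integral_eq_lintegral_of_nonneg_ae`.
`radial`: differentiate `‖z r - x‖ ^ 2 = r ^ 2` (at `r = ρ` use the derivative within `Iic ρ`, `UniqueDiffWithinAt`). `exists_P`: `Complex.arg` of `(y - x) / (z s - x)`, add `2π` if negative.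
Helper names end with `_Basic`. -/

namespace Vale.Agent.P128.T

open MeasureTheory Set Metric Filter Topology
open scoped ENNReal ComplexConjugate

noncomputable section

variable {Ω K : Set ℂ} {ε ρ a b t c₀ : ℝ} {wk : Prop} {u : ℂ → ℝ} {x : ℂ} {z z' W : ℝ → ℂ}

theorem fderiv_eq (u : ℂ → ℝ) (y v : ℂ) : fderiv ℝ u y v = (gr u y * conj v).re := by
  rw [fderiv_eq_dz, (norm_dz u y).2.2.1, ← map_mul, Complex.conj_re]

theorem norm_gr (u : ℂ → ℝ) (y : ℂ) : ‖gr u y‖ = ‖fderiv ℝ u y‖ := by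
  exact (norm_dz u y).2.1

theorem norm_nu {y : ℂ} (h : y ≠ x) : ‖nu x y‖ = 1 := by
  have h0 : ‖y - x‖ ≠ 0 := norm_ne_zero_iff.2 (sub_ne_zero.2 h)
  unfold nu
  rw [norm_div, Complex.norm_real, norm_norm, div_self h0]

theorem norm_nu_le (x y : ℂ) : ‖nu x y‖ ≤ 1 := by
  by_cases h : y = x
  · simp [nu, h]
  · exact (norm_nu h).le

theorem measurable_nu (x : ℂ) : Measurable (nu x) := by
  unfold nu
  fun_prop

theorem measurable_gr (u : ℂ → ℝ) : Measurable (gr u) := by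
  have h1 := measurable_fderiv_apply_const ℝ u (1 : ℂ)
  have h2 := measurable_fderiv_apply_const ℝ u Complex.I
  unfold gr
  exact (Complex.measurable_ofReal.comp h1).add
    (measurable_const.mul (Complex.measurable_ofReal.comp h2))

theorem gr_eq {y : ℂ} (h : y ≠ x) :
    gr u y = ((qq u x y : ℂ) + Complex.I * (pp u x y : ℂ)) * nu x y := by
  have h1 : nu x y * conj (nu x y) = 1 := by
    rw [Complex.mul_conj, Complex.normSq_eq_norm_sq, norm_nu h]
    simp
  have h2 : (qq u x y : ℂ) + Complex.I * (pp u x y : ℂ) = gr u y * conj (nu x y) := by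
    unfold qq pp
    rw [fderiv_eq, fderiv_eq]
    apply Complex.ext <;> simp <;> ring
  rw [h2, mul_assoc, mul_comm (conj (nu x y)), h1, mul_one]

theorem g2_eq {y : ℂ} (h : y ≠ x) : g2 u y = pp u x y ^ 2 + qq u x y ^ 2 := by
  unfold g2
  rw [← norm_gr, gr_eq h, norm_mul, norm_nu h, mul_one, Complex.sq_norm, Complex.normSq_apply]
  simp
  ring

theorem norm_fl (u : ℂ → ℝ) (x y : ℂ) : ‖fl u x y‖ ≤ g2 u y := by
  unfold fl g2
  rw [norm_mul, norm_pow, norm_gr, Complex.norm_conj]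
  exact mul_le_of_le_one_right (by positivity) (norm_nu_le x y)

theorem contOn (h : AM0 Ω ε wk u K) : ContinuousOn (fderiv ℝ u) (Ω \ K) := by
  exact (smooth_of_holo (h.isOpen.sdiff h.closed) h.diff h.holo).2.2.1

theorem locLip (h : AM0 Ω ε wk u K) : LocallyLipschitzOn (Ω \ K) u := by
  exact (smooth_of_holo (h.isOpen.sdiff h.closed) h.diff h.holo).2.2.2

theorem Tip.eps (h : Tip Ω ε wk u K x ρ z z') {r : ℝ} (h0 : 0 ≤ r) (hr : r ≤ ρ) :
    ε * √r ≤ √(√(r / ρ)) ^ 2 ∧ √(√(r / ρ)) ≤ 1 := by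
  have hρ := h.pos
  have h1 := h.am.small x ρ hρ h.sub
  have h2 : √r = √ρ * √(r / ρ) := by
    rw [← Real.sqrt_mul hρ.le, mul_div_cancel₀ _ hρ.ne']
  have h3 : √(r / ρ) ≤ 1 := Real.sqrt_le_one.2 ((div_le_one hρ).2 hr)
  refine ⟨?_, Real.sqrt_le_one.2 h3⟩
  rw [Real.sq_sqrt (Real.sqrt_nonneg _), h2, ← mul_assoc]
  exact mul_le_of_le_one_left (Real.sqrt_nonneg _) h1

theorem Tip.mem (h : Tip Ω ε wk u K x ρ z z') : x ∈ K := by
  have : x ∈ K ∩ closedBall x ρ := by
    rw [h.eqK]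
    exact mem_insert _ _
  exact this.1

theorem radial_gen (hn : ∀ r ∈ Ioc 0 ρ, ‖z r - x‖ = r) (hd : ∀ r ∈ Ioc 0 ρ, HasDerivAt z (z' r) r)
    {r : ℝ} (hr : r ∈ Ioc 0 ρ) : (conj (z r - x) * z' r).re = r ∧ 1 ≤ ‖z' r‖ := by
  have hU : UniqueDiffWithinAt ℝ (Ioc 0 ρ) r := uniqueDiffOn_Ioc 0 ρ r hr
  have h1 : HasDerivAt (fun s => ‖z s - x‖ ^ 2) (2 * inner ℝ (z r - x) (z' r)) r :=
    ((hd r hr).sub_const x).norm_sq
  have h2 : HasDerivWithinAt (fun s => ‖z s - x‖ ^ 2) (2 * r) (Ioc 0 ρ) r := by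
    have h3 : HasDerivAt (fun s : ℝ => s ^ 2) (2 * r) r := by
      simpa using hasDerivAt_pow 2 r
    refine h3.hasDerivWithinAt.congr (fun s hs => ?_) ?_
    · rw [hn s hs]
    · rw [hn r hr]
  have h4 := hU.eq_deriv _ h1.hasDerivWithinAt h2
  have h5 : (conj (z r - x) * z' r).re = r := by
    rw [Complex.inner, mul_comm (z' r)] at h4
    linarith
  refine ⟨h5, ?_⟩
  have h6 := Complex.re_le_norm (conj (z r - x) * z' r)
  rw [h5, norm_mul, Complex.norm_conj, hn r hr] at h6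
  have h7 : r * 1 ≤ r * ‖z' r‖ := by linarith
  exact le_of_mul_le_mul_left h7 hr.1

theorem Tip.radial (h : Tip Ω ε wk u K x ρ z z') {r : ℝ} (hr : r ∈ Ioc 0 ρ) :
    (conj (z r - x) * z' r).re = r ∧ 1 ≤ ‖z' r‖ := by
  exact radial_gen h.norm h.deriv hr

theorem Tip.lipz (h : Tip Ω ε wk u K x ρ z z') {r s : ℝ} (hr : r ∈ Ioc 0 ρ) (hs : s ∈ Ioc 0 ρ) :
    ‖z r - z s‖ ≤ 2 * |r - s| := by
  have := (convex_Ioc (0 : ℝ) ρ).norm_image_sub_le_of_norm_hasDerivWithin_le
    (fun t ht => (h.deriv t ht).hasDerivWithinAt) h.bound hs hr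
  rwa [Real.norm_eq_abs] at this

theorem normP_Basic (x : ℂ) (z : ℝ → ℂ) (s φ : ℝ) : ‖P x z s φ - x‖ = ‖z s - x‖ := by
  unfold P
  rw [add_sub_cancel_left, norm_mul, Complex.norm_exp_ofReal_mul_I, mul_one]

theorem pos_of_mul_pos_of_pos_right_Basic {a b : ℝ} (h : 0 < a * b) (hb : 0 < b) : 0 < a := by
  by_contra hc
  nlinarith [not_lt.1 hc]

theorem Tip.P_mem (h : Tip Ω ε wk u K x ρ z z') {s φ : ℝ} (hs : s ∈ Ioc 0 ρ)
    (hφ : φ ∈ Ioo 0 (2 * Real.pi)) : P x z s φ ∈ Ω \ K := by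
  have hn : ‖P x z s φ - x‖ = s := by rw [normP_Basic, h.norm s hs]
  have hb : P x z s φ ∈ closedBall x ρ := by
    rw [mem_closedBall, dist_eq_norm, hn]
    exact hs.2
  refine ⟨h.sub hb, fun hK => ?_⟩
  have h1 : P x z s φ ∈ insert x (z '' Ioc 0 ρ) := by
    rw [← h.eqK]
    exact ⟨hK, hb⟩
  rcases h1 with h1 | ⟨r, hr, h1⟩
  · rw [h1, sub_self, norm_zero] at hn
    exact hs.1.ne hn
  · have h2 : r = s := by rw [← h.norm r hr, h1, hn]
    rw [h2] at h1
    have h3 : z s - x ≠ 0 := by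
      rw [← norm_ne_zero_iff, h.norm s hs]
      exact hs.1.ne'
    have h4 : Complex.exp (φ * Complex.I) = 1 := by
      apply mul_left_cancel₀ h3
      unfold P at h1
      linear_combination -h1
    obtain ⟨n, hn2⟩ := Complex.exp_eq_one_iff.1 h4
    have h5 : φ = n * (2 * Real.pi) := by
      have := congrArg Complex.im hn2
      simpa using this
    have hp : 0 < 2 * Real.pi := by positivity
    have h6 : (0 : ℝ) < n := by
      have := hφ.1
      rw [h5] at this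
      exact pos_of_mul_pos_of_pos_right_Basic this hp
    have h7 : (n : ℝ) < 1 := by
      have := hφ.2
      rw [h5] at this
      nlinarith
    have h8 : (0 : ℤ) < n := by exact_mod_cast h6
    have h9 : n < (1 : ℤ) := by exact_mod_cast h7
    omega

theorem Tip.P_norm (h : Tip Ω ε wk u K x ρ z z') {s : ℝ} (hs : s ∈ Ioc 0 ρ) (φ : ℝ) :
    ‖P x z s φ - x‖ = s ∧ nu x (P x z s φ) = nu x (z s) * Complex.exp (φ * Complex.I) ∧
      z s - x = s * nu x (z s) := by
  have hn : ‖P x z s φ - x‖ = s := by rw [normP_Basic, h.norm s hs]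
  have h0 : (s : ℂ) ≠ 0 := by exact_mod_cast hs.1.ne'
  refine ⟨hn, ?_, ?_⟩
  · unfold nu
    rw [hn, h.norm s hs]
    unfold P
    ring
  · unfold nu
    rw [h.norm s hs]
    field_simp

theorem Tip.exists_P (h : Tip Ω ε wk u K x ρ z z') {y : ℂ} (hy : y ∉ K) (hr : ‖y - x‖ ≤ ρ) :
    ‖y - x‖ ∈ Ioc 0 ρ ∧ ∃ φ ∈ Ioo 0 (2 * Real.pi), y = P x z ‖y - x‖ φ := by
  have hyx : y ≠ x := fun e => hy (e ▸ h.mem)
  have hs : ‖y - x‖ ∈ Ioc 0 ρ := ⟨norm_pos_iff.2 (sub_ne_zero.2 hyx), hr⟩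
  refine ⟨hs, ?_⟩
  generalize hsdef : ‖y - x‖ = s at hs ⊢
  have h3 : z s - x ≠ 0 := by
    rw [← norm_ne_zero_iff, h.norm s hs]
    exact hs.1.ne'
  have hw : ‖(y - x) / (z s - x)‖ = 1 := by
    rw [norm_div, hsdef, h.norm s hs, div_self hs.1.ne']
  have hzK : z s ∈ K := by
    have : z s ∈ K ∩ closedBall x ρ := by
      rw [h.eqK]
      exact mem_insert_of_mem _ ⟨s, hs, rfl⟩
    exact this.1
  generalize hwdef : (y - x) / (z s - x) = w at hw
  have hy2 : y = x + (z s - x) * w := by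
    rw [← hwdef]
    field_simp
    ring
  have he : Complex.exp (w.arg * Complex.I) = w := by
    have := Complex.norm_mul_exp_arg_mul_I w
    rwa [hw, Complex.ofReal_one, one_mul] at this
  have hne : w.arg ≠ 0 := by
    intro h0
    rw [h0] at he
    simp only [Complex.ofReal_zero, zero_mul, Complex.exp_zero] at he
    apply hy
    rw [hy2, ← he]
    simpa using hzK
  have a1 := Complex.neg_pi_lt_arg w
  have a2 := Complex.arg_le_pi w
  have a3 := Real.pi_pos
  rcases lt_or_gt_of_ne hne with h0 | h0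
  · refine ⟨w.arg + 2 * Real.pi, ⟨by linarith, by linarith⟩, ?_⟩
    unfold P
    push_cast
    rw [add_mul, Complex.exp_add, he, Complex.exp_two_pi_mul_I, mul_one]
    exact hy2
  · refine ⟨w.arg, ⟨h0, by linarith⟩, ?_⟩
    unfold P
    rw [he]
    exact hy2

theorem Tip.null (h : Tip Ω ε wk u K x ρ z z') : volume (K ∩ closedBall x ρ) = 0 := by
  exact measure_mono_null (inter_subset_inter_right _ h.sub) h.am.vol

theorem measurable_g2_Basic (u : ℂ → ℝ) : Measurable (g2 u) :=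
  (measurable_fderiv ℝ u).norm.pow_const 2

theorem ofReal_g2_Basic (u : ℂ → ℝ) (y : ℂ) : ENNReal.ofReal (g2 u y) = ‖fderiv ℝ u y‖ₑ ^ 2 := by
  unfold g2
  rw [ENNReal.ofReal_pow (norm_nonneg _), ofReal_norm_eq_enorm]

theorem Tip.ae1_Basic (h : Tip Ω ε wk u K x ρ z z') {r : ℝ} (hr : r ≤ ρ) :
    (closedBall x r \ K : Set ℂ) =ᵐ[volume] closedBall x r := by
  rw [diff_ae_eq_self]
  refine measure_mono_null ?_ h.null
  exact fun y hy => ⟨hy.2, closedBall_subset_closedBall hr hy.1⟩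

theorem ae2_Basic (x : ℂ) (r : ℝ) : (ball x r : Set ℂ) =ᵐ[volume] closedBall x r := by
  refine (ae_eq_set.2 ⟨?_, ?_⟩)
  · rw [diff_eq_empty.2 ball_subset_closedBall, measure_empty]
  · rw [closedBall_diff_ball]
    exact Measure.addHaar_sphere volume x r

theorem Tip.ae3_Basic (h : Tip Ω ε wk u K x ρ z z') {r : ℝ} (hr : r ≤ ρ) :
    (ball x r \ K : Set ℂ) =ᵐ[volume] closedBall x r :=
  ((ae2_Basic x r).diff (ae_eq_refl K)).trans (h.ae1_Basic hr)

theorem Tip.fin_Basic (h : Tip Ω ε wk u K x ρ z z') {r : ℝ} (hr : r ≤ ρ) :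
    Dir u (closedBall x r) < ∞ := by
  have h1 := (h.am.upper_real h.pos h.sub).1
  have h2 : Dir u (closedBall x ρ \ K) = Dir u (closedBall x ρ) :=
    setLIntegral_congr (h.ae1_Basic le_rfl)
  have h3 : Dir u (closedBall x r) ≤ Dir u (closedBall x ρ) :=
    lintegral_mono_set (closedBall_subset_closedBall hr)
  rw [← h2, h1] at h3
  exact lt_of_le_of_lt h3 ENNReal.ofReal_lt_top

theorem Tip.int_g2 (h : Tip Ω ε wk u K x ρ z z') : IntegrableOn (g2 u) (closedBall x ρ) := by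
  refine ⟨(measurable_g2_Basic u).aestronglyMeasurable, ?_⟩
  rw [hasFiniteIntegral_iff_ofReal (Eventually.of_forall fun y => by unfold g2; positivity)]
  simp only [ofReal_g2_Basic]
  exact h.fin_Basic le_rfl

theorem Tip.int_fl (h : Tip Ω ε wk u K x ρ z z') : IntegrableOn (fl u x) (closedBall x ρ) := by
  refine Integrable.mono' h.int_g2 ?_ (Eventually.of_forall fun y => norm_fl u x y)
  have : Measurable (fl u x) :=
    ((measurable_gr u).pow_const 2).mul (Complex.continuous_conj.measurable.comp (measurable_nu x))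
  exact this.aestronglyMeasurable

theorem Tip.dir_eq (h : Tip Ω ε wk u K x ρ z z') {r : ℝ} (hr : r ≤ ρ) :
    Dir u (closedBall x r \ K) = ENNReal.ofReal (D u K x r) ∧
      D u K x r = ∫ y in closedBall x r, g2 u y := by
  have h1 : Dir u (closedBall x r \ K) = Dir u (closedBall x r) :=
    setLIntegral_congr (h.ae1_Basic hr)
  have h2 : Dir u (ball x r \ K) = Dir u (closedBall x r) :=
    setLIntegral_congr (h.ae3_Basic hr)
  unfold D
  rw [h1, h2]
  refine ⟨(ENNReal.ofReal_toReal (h.fin_Basic hr).ne).symm, ?_⟩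
  rw [integral_eq_lintegral_of_nonneg_ae (Eventually.of_forall fun y => by unfold g2; positivity)
    (measurable_g2_Basic u).aestronglyMeasurable]
  simp only [ofReal_g2_Basic]
  rfl

theorem Tip.D_le (h : Tip Ω ε wk u K x ρ z z') {r : ℝ} (hr : r ∈ Ioc 0 ρ) :
    0 ≤ D u K x r ∧ D u K x r ≤ 8 * r := by
  have h1 := h.am.upper hr.1 ((closedBall_subset_closedBall hr.2).trans h.sub)
  refine ⟨ENNReal.toReal_nonneg, ?_⟩
  have h2 : Dir u (closedBall x r \ K) ≤ ENNReal.ofReal (8 * r) := le_trans le_self_add h1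
  rw [(h.dir_eq hr.2).1] at h2
  exact (ENNReal.ofReal_le_ofReal_iff (by linarith [hr.1])).1 h2

theorem Tip.D_sub (h : Tip Ω ε wk u K x ρ z z') (hab : a ≤ b) (hb : b ≤ ρ) :
    D u K x b - D u K x a = ∫ y in ann x a b, g2 u y := by
  rw [(h.dir_eq hb).2, (h.dir_eq (hab.trans hb)).2]
  have hi : IntegrableOn (g2 u) (closedBall x b) :=
    h.int_g2.mono_set (closedBall_subset_closedBall hb)
  rw [← integral_diff measurableSet_closedBall hi (closedBall_subset_closedBall hab)]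
  apply setIntegral_congr_set
  have e : ann x a b = ball x b \ closedBall x a := by
    ext y
    simp only [ann, mem_ofPred_eq, mem_diff, mem_ball, mem_closedBall, dist_eq_norm, not_le]
    exact and_comm
  rw [e]
  exact ((ae2_Basic x b).diff (ae_eq_refl _)).symm

end

end Vale.Agent.P128.T
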