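import Vale.Agent.P128.T.Jac

/-! P128 T/Circ (TASK, about 200 lines): the inequality on one circle.
Let `m = Q / (2π)`, `h φ = ∫_0^φ (q - m)`, `h' = q - m`. `(p cos + q sin)^2 ≤ 2 (p cos + h' sin)^2 + 2 m^2`, `p cos + h' sin = (p + h/2) cos + (h' sin - h cos / 2)`, so by `jacobi`
`∫ (p cos + h' sin)^2 ≤ 2 ∫ (p^2 + p h + h'^2)`. Integration by parts: `s ∫ p h = - ∫ U h'` (`intervalIntegral.integral_eq_sub_of_hasDerivAt_of_tendsto` for `U h`, which tends to `0` at both ends since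
`U` is bounded), `|m ∫ U| ≤ M |Q|`, `∫ h'^2 = ∫ q^2 - 2π m^2`. `|p| ≤ (1 + p^2)/2` gives integrability (measurability from `ContinuousOn.aestronglyMeasurable` on `Ioo`). Helper names end with `_Circ`. -/

namespace Vale.Agent.P128.T

open MeasureTheory Set Metric Filter Topology
open scoped ENNReal ComplexConjugate

noncomputable section

variable {Ω K : Set ℂ} {ε ρ a b t c₀ : ℝ} {wk : Prop} {u : ℂ → ℝ} {x : ℂ} {z z' W : ℝ → ℂ}

/-- Square integrable on the interval. -/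
def L2_Circ (f : ℝ → ℝ) : Prop := MemLp f 2 (volume.restrict (Ioo 0 (2 * Real.pi)))

theorem le_Circ : (0 : ℝ) ≤ 2 * Real.pi := by positivity

theorem bd_Circ {f : ℝ → ℝ} {C : ℝ} (hf : ContinuousOn f (Ioo 0 (2 * Real.pi)))
    (h : ∀ φ ∈ Ioo 0 (2 * Real.pi), |f φ| ≤ C) : L2_Circ f :=
  MemLp.of_bound (hf.aestronglyMeasurable measurableSet_Ioo) C
    ((ae_restrict_iff' measurableSet_Ioo).2 (Eventually.of_forall h))

theorem mulb_Circ {f g : ℝ → ℝ} (hf : L2_Circ f) (hg : Continuous g) (h : ∀ φ, |g φ| ≤ 1) :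
    L2_Circ fun φ => f φ * g φ :=
  MemLp.of_le hf (hf.1.mul hg.aestronglyMeasurable) (Eventually.of_forall fun φ => by
    rw [norm_mul]
    exact mul_le_of_le_one_right (norm_nonneg _) (h φ))

theorem imul_Circ {f g : ℝ → ℝ} (hf : L2_Circ f) (hg : L2_Circ g) :
    IntervalIntegrable (fun φ => f φ * g φ) volume 0 (2 * Real.pi) :=
  (intervalIntegrable_iff_integrableOn_Ioo_of_le le_Circ).2 (MemLp.integrable_mul hf hg)

theorem isq_Circ {f : ℝ → ℝ} (hf : L2_Circ f) :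
    IntervalIntegrable (fun φ => f φ ^ 2) volume 0 (2 * Real.pi) := by
  simpa only [sq] using imul_Circ hf hf

theorem ione_Circ {f : ℝ → ℝ} (hf : L2_Circ f) : IntervalIntegrable f volume 0 (2 * Real.pi) :=
  (intervalIntegrable_iff_integrableOn_Ioo_of_le le_Circ).2 (MemLp.integrable one_le_two hf)

theorem ofsq_Circ {f g : ℝ → ℝ} (hf : ContinuousOn f (Ioo 0 (2 * Real.pi)))
    (hg : IntervalIntegrable g volume 0 (2 * Real.pi)) (h : ∀ φ, f φ ^ 2 ≤ g φ) : L2_Circ f := by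
  have hm := hf.aestronglyMeasurable (μ := volume) measurableSet_Ioo
  refine (memLp_two_iff_integrable_sq hm).2 ?_
  refine Integrable.mono' ((intervalIntegrable_iff_integrableOn_Ioo_of_le le_Circ).1 hg)
    (hm.pow 2) (Eventually.of_forall fun φ => ?_)
  rw [Real.norm_eq_abs, abs_of_nonneg (sq_nonneg _)]
  exact h φ

theorem parts_Circ {U p h h' : ℝ → ℝ} {s M : ℝ}
    (hU : ∀ φ ∈ Ioo 0 (2 * Real.pi), HasDerivAt U (s * p φ) φ)
    (hM : ∀ φ ∈ Ioo 0 (2 * Real.pi), |U φ| ≤ M) (hc : ContinuousOn h (Icc 0 (2 * Real.pi)))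
    (hd : ∀ φ ∈ Ioo 0 (2 * Real.pi), HasDerivAt h (h' φ) φ) (h0 : h 0 = 0)
    (h1 : h (2 * Real.pi) = 0)
    (i1 : IntervalIntegrable (fun φ => p φ * h φ) volume 0 (2 * Real.pi))
    (i2 : IntervalIntegrable (fun φ => U φ * h' φ) volume 0 (2 * Real.pi)) :
    s * (∫ φ in (0 : ℝ)..(2 * Real.pi), p φ * h φ) +
      ∫ φ in (0 : ℝ)..(2 * Real.pi), U φ * h' φ = 0 := by
  have hpos : (0 : ℝ) < 2 * Real.pi := by positivity
  have key : ∀ {l : Filter ℝ}, (∀ᶠ φ in l, φ ∈ Ioo 0 (2 * Real.pi)) → Tendsto h l (𝓝 0) →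
      Tendsto (fun φ => U φ * h φ) l (𝓝 0) := by
    intro l hl ht
    refine squeeze_zero_norm' (a := fun φ => M * |h φ|) ?_ ?_
    · filter_upwards [hl] with φ hφ
      rw [norm_mul]
      exact mul_le_mul_of_nonneg_right (hM φ hφ) (abs_nonneg _)
    · simpa using ht.abs.const_mul M
  have t0 : Tendsto h (𝓝[>] 0) (𝓝 0) := by
    have := (hc 0 ⟨le_rfl, hpos.le⟩).tendsto
    rw [h0] at this
    exact this.mono_left (nhdsWithin_le_of_mem (Icc_mem_nhdsGT hpos))
  have t1 : Tendsto h (𝓝[<] (2 * Real.pi)) (𝓝 0) := by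
    have := (hc _ ⟨hpos.le, le_rfl⟩).tendsto
    rw [h1] at this
    exact this.mono_left (nhdsWithin_le_of_mem (Icc_mem_nhdsLT hpos))
  have := intervalIntegral.integral_eq_sub_of_hasDerivAt_of_tendsto hpos
    (f := fun φ => U φ * h φ) (f' := fun φ => s * (p φ * h φ) + U φ * h' φ)
    (fun φ hφ => ((hU φ hφ).mul (hd φ hφ)).congr_deriv (by ring)) ((i1.const_mul s).add i2)
    (key (Ioo_mem_nhdsGT hpos) t0) (key (Ioo_mem_nhdsLT hpos) t1)
  rw [intervalIntegral.integral_add (i1.const_mul s) i2,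
    intervalIntegral.integral_const_mul] at this
  linarith

theorem point_Circ {p q h m c n : ℝ} (hc : |c| ≤ 1) (hn : |n| ≤ 1) :
    (p * c + q * n) ^ 2 ≤
      4 * p ^ 2 + 4 * (p * h) + h ^ 2 + 4 * ((q - m) * n - h * c / 2) ^ 2 + 2 * m ^ 2 := by
  have c2 : c ^ 2 ≤ 1 := by rwa [sq_le_one_iff_abs_le_one]
  have n2 : n ^ 2 ≤ 1 := by rwa [sq_le_one_iff_abs_le_one]
  have e : p * c + q * n = ((p + h / 2) * c + ((q - m) * n - h * c / 2)) + m * n := by ring
  have b1 : ((p + h / 2) * c) ^ 2 ≤ (p + h / 2) ^ 2 := by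
    rw [mul_pow]; exact mul_le_of_le_one_right (sq_nonneg _) c2
  have b2 : (m * n) ^ 2 ≤ m ^ 2 := by
    rw [mul_pow]; exact mul_le_of_le_one_right (sq_nonneg _) n2
  rw [e]
  generalize (p + h / 2) * c = A at *
  generalize (q - m) * n - h * c / 2 = J at *
  generalize m * n = B at *
  nlinarith [sq_nonneg (A + J - B), sq_nonneg (A - J)]

theorem core_Circ {p q h : ℝ → ℝ} {m : ℝ} (hp : L2_Circ p) (hq : L2_Circ q) (hh : L2_Circ h)
    (hc : ContinuousOn h (Icc 0 (2 * Real.pi)))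
    (hd : ∀ φ ∈ Ioo 0 (2 * Real.pi), HasDerivAt h (q φ - m) φ) (h0 : h 0 = 0)
    (h1 : h (2 * Real.pi) = 0) (hm : ∫ φ in (0 : ℝ)..(2 * Real.pi), q φ = 2 * Real.pi * m) :
    ∫ φ in (0 : ℝ)..(2 * Real.pi), (p φ * Real.cos (φ / 2) + q φ * Real.sin (φ / 2)) ^ 2 ≤
      4 * ((∫ φ in (0 : ℝ)..(2 * Real.pi), (p φ ^ 2 + q φ ^ 2)) +
        ∫ φ in (0 : ℝ)..(2 * Real.pi), p φ * h φ) := by
  have cc : Continuous fun φ : ℝ => Real.cos (φ / 2) := by fun_prop
  have cs : Continuous fun φ : ℝ => Real.sin (φ / 2) := by fun_prop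
  have hq' : L2_Circ fun φ => q φ - m := MemLp.sub hq (memLp_const m)
  have hJ : L2_Circ fun φ => (q φ - m) * Real.sin (φ / 2) - h φ * Real.cos (φ / 2) / 2 :=
    MemLp.sub (mulb_Circ hq' cs fun _ => Real.abs_sin_le_one _)
      (by simpa only [div_eq_mul_inv] using
        MemLp.mul_const (mulb_Circ hh cc fun _ => Real.abs_cos_le_one _) (2 : ℝ)⁻¹)
  have hA : L2_Circ fun φ => p φ * Real.cos (φ / 2) + q φ * Real.sin (φ / 2) :=
    MemLp.add (mulb_Circ hp cc fun _ => Real.abs_cos_le_one _)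
      (mulb_Circ hq cs fun _ => Real.abs_sin_le_one _)
  have j := jacobi hc hd h0 h1 (ione_Circ hq') (isq_Circ hq')
  have i1 := (isq_Circ hp).const_mul 4
  have i2 := (imul_Circ hp hh).const_mul 4
  have i3 := isq_Circ hh
  have i4 := (isq_Circ hJ).const_mul 4
  have i5 : IntervalIntegrable (fun _ : ℝ => 2 * m ^ 2) volume 0 (2 * Real.pi) :=
    intervalIntegrable_const
  have b := intervalIntegral.integral_mono le_Circ (isq_Circ hA)
    ((((i1.add i2).add i3).add i4).add i5) fun φ =>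
      point_Circ (Real.abs_cos_le_one _) (Real.abs_sin_le_one _)
  rw [intervalIntegral.integral_add (((i1.add i2).add i3).add i4) i5,
    intervalIntegral.integral_add ((i1.add i2).add i3) i4,
    intervalIntegral.integral_add (i1.add i2) i3, intervalIntegral.integral_add i1 i2,
    intervalIntegral.integral_const_mul, intervalIntegral.integral_const_mul,
    intervalIntegral.integral_const_mul, intervalIntegral.integral_const] at b
  have e : (fun φ => (q φ - m) ^ 2) = fun φ => q φ ^ 2 - 2 * m * q φ + m ^ 2 := by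
    funext φ; ring
  rw [intervalIntegral.integral_sub (isq_Circ hq') (i3.div_const 4),
    intervalIntegral.integral_div, e,
    intervalIntegral.integral_add ((isq_Circ hq).sub ((ione_Circ hq).const_mul _))
      intervalIntegrable_const,
    intervalIntegral.integral_sub (isq_Circ hq) ((ione_Circ hq).const_mul _),
    intervalIntegral.integral_const_mul, intervalIntegral.integral_const, hm] at j
  rw [intervalIntegral.integral_add (isq_Circ hp) (isq_Circ hq)]
  simp only [sub_zero, smul_eq_mul] at b j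
  have : 0 ≤ Real.pi * m ^ 2 := by positivity
  nlinarith

theorem circ {U p q : ℝ → ℝ} {s M : ℝ} (hs : 0 < s)
    (hU : ∀ φ ∈ Ioo 0 (2 * Real.pi), HasDerivAt U (s * p φ) φ)
    (hM : ∀ φ ∈ Ioo 0 (2 * Real.pi), |U φ| ≤ M) (hp : ContinuousOn p (Ioo 0 (2 * Real.pi)))
    (hq : ContinuousOn q (Ioo 0 (2 * Real.pi)))
    (hi : IntervalIntegrable (fun φ => p φ ^ 2 + q φ ^ 2) volume 0 (2 * Real.pi)) :
    s * ∫ φ in (0 : ℝ)..(2 * Real.pi), (p φ * Real.cos (φ / 2) + q φ * Real.sin (φ / 2)) ^ 2 ≤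
      4 * (s * (∫ φ in (0 : ℝ)..(2 * Real.pi), (p φ ^ 2 + q φ ^ 2)) -
        ∫ φ in (0 : ℝ)..(2 * Real.pi), U φ * q φ) +
      4 * M * |∫ φ in (0 : ℝ)..(2 * Real.pi), q φ| + s * (∫ φ in (0 : ℝ)..(2 * Real.pi), q φ) ^ 2 := by
  have hpi := Real.pi_pos
  have lp : L2_Circ p := ofsq_Circ hp hi fun φ => by nlinarith [sq_nonneg (q φ)]
  have lq : L2_Circ q := ofsq_Circ hq hi fun φ => by nlinarith [sq_nonneg (p φ)]
  have lU : L2_Circ U :=
    bd_Circ (fun φ hφ => (hU φ hφ).continuousAt.continuousWithinAt) hM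
  obtain ⟨m, hm⟩ : ∃ m, ∫ φ in (0 : ℝ)..(2 * Real.pi), q φ = 2 * Real.pi * m :=
    ⟨(∫ φ in (0 : ℝ)..(2 * Real.pi), q φ) / (2 * Real.pi), by field_simp⟩
  have lq' : L2_Circ fun φ => q φ - m := MemLp.sub lq (memLp_const m)
  have iq := ione_Circ lq'
  have hc : ContinuousOn (fun φ => ∫ t in (0 : ℝ)..φ, (q t - m)) (Icc 0 (2 * Real.pi)) := by
    have := intervalIntegral.continuousOn_primitive_interval' iq left_mem_uIcc
    rwa [uIcc_of_le le_Circ] at this
  have cq : ContinuousOn (fun φ => q φ - m) (Ioo 0 (2 * Real.pi)) := hq.sub continuousOn_const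
  have hd : ∀ φ ∈ Ioo 0 (2 * Real.pi),
      HasDerivAt (fun φ => ∫ t in (0 : ℝ)..φ, (q t - m)) (q φ - m) φ := fun φ hφ =>
    intervalIntegral.integral_hasDerivAt_right
      (iq.mono_set (uIcc_subset_uIcc_left (by rw [uIcc_of_le le_Circ]; exact ⟨hφ.1.le, hφ.2.le⟩)))
      (cq.stronglyMeasurableAtFilter isOpen_Ioo φ hφ) (cq.continuousAt (Ioo_mem_nhds hφ.1 hφ.2))
  have h1 : ∫ t in (0 : ℝ)..(2 * Real.pi), (q t - m) = 0 := by
    rw [intervalIntegral.integral_sub (ione_Circ lq) intervalIntegrable_const, hm]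
    simp
  obtain ⟨C, hC⟩ := isCompact_Icc.exists_bound_of_continuousOn hc
  have lh : L2_Circ fun φ => ∫ t in (0 : ℝ)..φ, (q t - m) :=
    bd_Circ (hc.mono Ioo_subset_Icc_self) fun φ hφ => hC φ (Ioo_subset_Icc_self hφ)
  have c1 := core_Circ lp lq lh hc hd intervalIntegral.integral_same h1 hm
  have c2 := parts_Circ hU hM hc hd intervalIntegral.integral_same h1 (imul_Circ lp lh)
    (imul_Circ lU lq')
  have e : (fun φ => U φ * (q φ - m)) = fun φ => U φ * q φ - m * U φ := by funext φ; ring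
  rw [e, intervalIntegral.integral_sub (imul_Circ lU lq) ((ione_Circ lU).const_mul m),
    intervalIntegral.integral_const_mul] at c2
  have c3 : |∫ φ in (0 : ℝ)..(2 * Real.pi), U φ| ≤ M * (2 * Real.pi) := by
    have := intervalIntegral.norm_integral_le_of_norm_le_const_ae (a := 0) (b := 2 * Real.pi)
      (C := M) (f := U) (by
        filter_upwards [compl_mem_ae_iff.2 (measure_singleton (μ := volume) (2 * Real.pi))]
          with φ h2 hφ
        rw [uIoc_of_le le_Circ] at hφ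
        exact hM φ ⟨hφ.1, lt_of_le_of_ne hφ.2 h2⟩)
    rwa [sub_zero, abs_of_nonneg le_Circ] at this
  have c4 : m * ∫ φ in (0 : ℝ)..(2 * Real.pi), U φ ≤ M * |2 * Real.pi * m| := by
    refine (le_abs_self _).trans ?_
    rw [abs_mul, abs_mul, abs_of_nonneg le_Circ]
    calc _ ≤ |m| * (M * (2 * Real.pi)) := mul_le_mul_of_nonneg_left c3 (abs_nonneg _)
      _ = _ := by ring
  have c5 := mul_le_mul_of_nonneg_left c1 hs.le
  have c6 : 0 ≤ s * (2 * Real.pi * m) ^ 2 := by positivity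
  rw [hm]
  linarith

end

end Vale.Agent.P128.T
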