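import Vale.Agent.P128.T.Phi

/-! P128 T/Comp: the deformed pair is a competitor.
`image_ball` for `Ω` and `closedBall x b`, `Phi_out` (so `Φ.symm y = y` outside the ball). `lip`: `locLip`, `Φ.symm` is Lipschitz and maps `Ω \ Φ '' K` to `Ω \ K`.
`sep`: `c' = c ∘ Φ.symm`, continuity of `Φ.symm`. Helper names end with `_Comp`. -/

namespace Vale.Agent.P128.T

open MeasureTheory Set Metric Filter Topology
open scoped ENNReal ComplexConjugate

noncomputable section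

variable {Ω K : Set ℂ} {ε ρ a b t c₀ : ℝ} {wk : Prop} {u : ℂ → ℝ} {x : ℂ} {z z' W : ℝ → ℂ}

theorem comp (h : AM0 Ω ε wk u K) (hF : Fld W a b t) (hs : closedBall x b ⊆ Ω) {Φ : ℂ ≃ₜ ℂ}
    (hΦ : ∀ y, Φ y = Phi W x a b y) (hl : LipschitzWith 2 Φ.symm) :
    Comp Ω wk u K x b (fun y => u (Φ.symm y)) (Φ '' K) := by
  have hΩ : Φ '' Ω = Ω := hF.image_ball hΦ (ball_subset_closedBall.trans hs)
  have hout : ∀ y, y ∉ closedBall x b → Φ y = y := fun y hy => by
    rw [mem_closedBall, dist_eq_norm, not_le] at hy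
    rw [hΦ]
    exact hF.Phi_out hy.le
  have hout' : ∀ y, y ∉ closedBall x b → Φ.symm y = y := fun y hy => by
    rw [Homeomorph.symm_apply_eq]
    exact (hout y hy).symm
  have hmaps : MapsTo Φ.symm (Ω \ Φ '' K) (Ω \ K) := by
    rintro y ⟨h1, h2⟩
    refine ⟨?_, fun h3 => h2 ⟨_, h3, Φ.apply_symm_apply y⟩⟩
    rw [← hΩ] at h1
    obtain ⟨w, hw, rfl⟩ := h1
    rwa [Φ.symm_apply_apply]
  refine ⟨Φ.isClosedMap _ h.closed, ?_, fun y _ hy => ?_, fun y hy => ?_, fun _ c hc => ?_⟩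
  · ext y
    constructor
    · rintro ⟨⟨w, hw, h1⟩, h2⟩
      refine ⟨?_, h2⟩
      rw [← hout' y h2, ← h1, Φ.symm_apply_apply]
      exact hw
    · rintro ⟨h1, h2⟩
      exact ⟨⟨y, h1, hout y h2⟩, h2⟩
  · rw [hout' y hy]
  · obtain ⟨C, T, hT, hC⟩ := locLip h (hmaps hy)
    exact ⟨C * 2, Φ.symm ⁻¹' T,
      (Φ.symm.continuous.continuousWithinAt.tendsto_nhdsWithin hmaps) hT,
      hC.comp hl.lipschitzOnWith (mapsTo_preimage _ _)⟩
  · exact ⟨fun y => c (Φ.symm y),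
      fun y hy => Φ.symm.continuous.continuousAt.eventually (hc _ (hmaps hy)),
      fun y _ hy => congrArg c (hout' y hy)⟩

end

end Vale.Agent.P128.T
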