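import Vale.Agent.P128.T.Inner

/-! P128 T/Core (TASK, about 150 lines): the two integral inequalities.
`∫_a^b CI x z (g2 u) = D b - D a` (`polarT`, `D_sub`). `low`: `inner_one` with `W = z' / ‖z'‖`, `fl_le`. `main_ineq`: `inner_one` with `W s = - nu x (z s) = -(z s - x) / s`;
`re (conj (nu x (z s)) * z' / ‖z'‖) = 1 / ‖z'‖` (`radial`, `P_norm`), `pt`, `ε √s ≤ ε √b ≤ k² ≤ k` (`Tip.eps`), `intervalIntegral.integral_mono_ae_restrict`; `D` is monotone, so `D s / s` is integrable.
Helper names end with `_Core`. -/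

namespace Vale.Agent.P128.T

open MeasureTheory Set Metric Filter Topology
open scoped ENNReal ComplexConjugate

noncomputable section

variable {Ω K : Set ℂ} {ε ρ a b t c₀ : ℝ} {wk : Prop} {u : ℂ → ℝ} {x : ℂ} {z z' W : ℝ → ℂ}

theorem Tip.mono (h : Tip Ω ε wk u K x ρ z z') : MonotoneOn (D u K x) (Iic ρ) := by
  intro a _ b hb hab
  have h1 := h.D_sub hab hb
  have h2 : 0 ≤ ∫ y in ann x a b, g2 u y := integral_nonneg fun y => sq_nonneg _
  linarith

theorem Tip.n_Core (h : Tip Ω ε wk u K x ρ z z') (ha : 0 < a) (hab : a ≤ b) (hb : b ≤ ρ) :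
    IntervalIntegrable (CI x z (g2 u)) volume a b ∧
      ∫ s in a..b, CI x z (g2 u) s = D u K x b - D u K x a := by
  have hs : ann x a b ⊆ closedBall x ρ := fun y hy => mem_closedBall_iff_norm.2 (hy.2.le.trans hb)
  obtain ⟨h1, h2, -⟩ := polarT (z := z) ha.le hab
    (fun s hs => h.norm s ⟨ha.trans hs.1, hs.2.le.trans hb⟩) (h.int_g2.mono_set hs)
  exact ⟨h1, h2.trans (h.D_sub hab hb).symm⟩

theorem mono_Core {f g : ℝ → ℝ} (hab : a ≤ b) (hf : IntervalIntegrable f volume a b)
    (hg : IntervalIntegrable g volume a b) (h : ∀ᵐ s, s ∈ Ioo a b → f s ≤ g s) :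
    ∫ s in a..b, f s ≤ ∫ s in a..b, g s := by
  refine intervalIntegral.integral_mono_ae_restrict hab hf hg ?_
  rw [← Measure.restrict_congr_set Ioo_ae_eq_Icc]
  exact (ae_restrict_iff' measurableSet_Ioo).2 h

theorem Tip.low (h : Tip Ω ε wk u K x ρ z z') (ha : 0 < a) (hab : a ≤ b) (hb : b ≤ ρ) :
    b - a - 11 * b * √(√(b / ρ)) ≤ D u K x b - D u K x a := by
  have hs : Icc a b ⊆ Ioc 0 ρ := fun s hs => ⟨ha.trans_le hs.1, hs.2.trans hb⟩
  have hn : ∀ s ∈ Icc a b, ‖z' s‖ ≠ 0 := fun s h1 => by linarith [(h.radial (hs h1)).2]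
  have hW : ContinuousOn (fun s => z' s / (‖z' s‖ : ℝ)) (Icc a b) :=
    (h.cont.mono hs).div (Complex.continuous_ofReal.comp_continuousOn (h.cont.mono hs).norm)
      fun s h1 => Complex.ofReal_ne_zero.2 (hn s h1)
  have h1 : ∀ s ∈ Icc a b, ‖z' s / (‖z' s‖ : ℝ)‖ = 1 := fun s h1 => by
    rw [norm_div, Complex.norm_real, norm_norm, div_self (hn s h1)]
  have h2 := h.inner_one ha hab hb hW fun s hs => (h1 s hs).le
  have h3 : ∫ s in a..b, (conj (z' s / (‖z' s‖ : ℝ)) * (z' s / (‖z' s‖ : ℝ))).re = b - a := by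
    rw [intervalIntegral.integral_congr (g := fun _ => (1 : ℝ)) fun s h4 => ?_]
    · simp
    · rw [uIcc_of_le hab] at h4
      simp only [Complex.conj_mul', h1 s h4]
      simp
  obtain ⟨i1, e1⟩ := h.n_Core ha hab hb
  have h4 := mono_Core hab (h.ii_W ha hab hb hW).2 i1 (by
    filter_upwards [h.fl_le] with s h5 h6
    refine (Complex.re_le_norm _).trans ?_
    rw [norm_mul, Complex.norm_conj, h1 s (Ioo_subset_Icc_self h6), one_mul]
    exact h5 ⟨ha.trans h6.1, h6.2.trans_le hb⟩)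
  linarith

theorem Tip.main_ineq (h : Tip Ω ε wk u K x ρ z z') (ha : 0 < a) (hab : a ≤ b) (hb : b ≤ ρ / 2) :
    8 * (∫ s in a..b, D u K x s / s) + ∫ s in a..b, (1 - 1 / ‖z' s‖) ≤
      7 * (D u K x b - D u K x a) + (b - a) + 6011 * b * √(√(b / ρ)) := by
  have hρ := h.pos
  have hb' : b ≤ ρ := by linarith
  have hs : Icc a b ⊆ Ioc 0 ρ := fun s hs => ⟨ha.trans_le hs.1, hs.2.trans hb'⟩
  have hn : ∀ s ∈ Icc a b, ‖z' s‖ ≠ 0 := fun s h1 => by linarith [(h.radial (hs h1)).2]
  have e0 : ∀ s ∈ Icc a b, nu x (z s) = (z s - x) / (s : ℂ) := fun s h1 => by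
    rw [nu, h.norm s (hs h1)]
  have hW : ContinuousOn (fun s => -nu x (z s)) (Icc a b) := by
    refine ContinuousOn.neg (ContinuousOn.congr ?_ e0)
    have hz : ContinuousOn z (Icc a b) := fun s h1 =>
      (h.deriv s (hs h1)).continuousAt.continuousWithinAt
    exact (hz.sub continuousOn_const).div
      Complex.continuous_ofReal.continuousOn fun s h1 => Complex.ofReal_ne_zero.2 (hs h1).1.ne'
  have h2 := h.inner_one ha hab hb' hW fun s _ => by
    rw [norm_neg]
    exact norm_nu_le _ _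
  have i0 : IntervalIntegrable (fun s => 1 / ‖z' s‖) volume a b :=
    (continuousOn_const.div (h.cont.mono hs).norm hn).intervalIntegrable_of_Icc hab
  have h3 : ∫ s in a..b, (conj (-nu x (z s)) * (z' s / (‖z' s‖ : ℝ))).re =
      -∫ s in a..b, 1 / ‖z' s‖ := by
    rw [← intervalIntegral.integral_neg]
    refine intervalIntegral.integral_congr fun s h4 => ?_
    rw [uIcc_of_le hab] at h4
    have h5 := (h.radial (hs h4)).1
    have h6 : conj (-nu x (z s)) * (z' s / (‖z' s‖ : ℝ)) =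
        (-(1 / (s * ‖z' s‖)) : ℝ) * (conj (z s - x) * z' s) := by
      rw [e0 s h4, map_neg, map_div₀, Complex.conj_ofReal]
      push_cast
      ring
    have h7 := (hs h4).1.ne'
    have h8 := hn s h4
    simp only [h6, Complex.re_ofReal_mul, h5]
    field_simp
  obtain ⟨i1, e1⟩ := h.n_Core ha hab hb'
  have i2 : IntervalIntegrable (fun s => D u K x s / s) volume a b := by
    have m1 : MonotoneOn (D u K x) (uIcc a b) := by
      rw [uIcc_of_le hab]
      exact h.mono.mono fun s h1 => (hs h1).2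
    refine m1.intervalIntegrable.mul_continuousOn (g := fun s => s⁻¹) ?_
    rw [uIcc_of_le hab]
    exact continuousOn_id.inv₀ fun s h1 => (hs h1).1.ne'
  obtain ⟨k1, k2⟩ := h.eps (ha.le.trans hab) hb'
  have k0 := Real.sqrt_nonneg (√(b / ρ))
  generalize √(√(b / ρ)) = k at k0 k1 k2 h2 ⊢
  have h4 := mono_Core hab (h.ii_W ha hab hb' hW).2
    (((i1.const_mul 7).sub (i2.const_mul 8)).add (intervalIntegrable_const (c := 6000 * k))) (by
    filter_upwards [h.pt] with s h5 h6
    have h7 := h5 ⟨ha.trans h6.1, h6.2.trans_le hb⟩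
    have h8 : ε * √s ≤ ε * √b := mul_le_mul_of_nonneg_left (Real.sqrt_le_sqrt h6.2.le) h.am.eps
    rw [map_neg, neg_mul, Complex.neg_re]
    nlinarith)
  rw [intervalIntegral.integral_add ((i1.const_mul 7).sub (i2.const_mul 8))
    intervalIntegrable_const, intervalIntegral.integral_sub (i1.const_mul 7) (i2.const_mul 8),
    intervalIntegral.integral_const_mul, intervalIntegral.integral_const_mul,
    intervalIntegral.integral_const, e1, smul_eq_mul] at h4
  rw [intervalIntegral.integral_sub intervalIntegrable_const i0, intervalIntegral.integral_const,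
    smul_eq_mul, mul_one]
  have h9 := mul_nonneg ha.le k0
  linarith

end

end Vale.Agent.P128.T
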