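import Vale.Agent.P128.Defs

/-! P128 T/Defs: definitions of the crack tip block (owner helper11, overview notes/P128T.md). -/

namespace Vale.Agent.P128.T

open MeasureTheory Set Metric Filter Topology
open scoped ENNReal ComplexConjugate

noncomputable section

/-- Near `x` the set `K` is one curve parametrized by the distance to `x`. -/
structure Tip (Ω : Set ℂ) (ε : ℝ) (wk : Prop) (u : ℂ → ℝ) (K : Set ℂ) (x : ℂ) (ρ : ℝ)
    (z z' : ℝ → ℂ) : Prop where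
  am : AM0 Ω ε wk u K
  pos : 0 < ρ
  sub : closedBall x ρ ⊆ Ω
  eqK : K ∩ closedBall x ρ = insert x (z '' Ioc 0 ρ)
  norm : ∀ r ∈ Ioc 0 ρ, ‖z r - x‖ = r
  deriv : ∀ r ∈ Ioc 0 ρ, HasDerivAt z (z' r) r
  bound : ∀ r ∈ Ioc 0 ρ, ‖z' r‖ ≤ 2
  cont : ContinuousOn z' (Ioc 0 ρ)

/-- The point of the circle of radius `s` at angle `φ` from the curve. -/
def P (x : ℂ) (z : ℝ → ℂ) (s φ : ℝ) : ℂ := x + (z s - x) * Complex.exp (φ * Complex.I)

/-- The radial unit vector. -/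
def nu (x y : ℂ) : ℂ := (y - x) / (‖y - x‖ : ℝ)

/-- Radial derivative. -/
def qq (u : ℂ → ℝ) (x y : ℂ) : ℝ := fderiv ℝ u y (nu x y)

/-- Tangential derivative. -/
def pp (u : ℂ → ℝ) (x y : ℂ) : ℝ := fderiv ℝ u y (Complex.I * nu x y)

/-- Squared gradient. -/
def g2 (u : ℂ → ℝ) (y : ℂ) : ℝ := ‖fderiv ℝ u y‖ ^ 2

/-- The density of the flux of the stress tensor. -/
def fl (u : ℂ → ℝ) (x y : ℂ) : ℂ := gr u y ^ 2 * conj (nu x y)

/-- Integral over the circle of radius `s`. -/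
def CI {E : Type} [NormedAddCommGroup E] [NormedSpace ℝ E] (x : ℂ) (z : ℝ → ℂ) (f : ℂ → E)
    (s : ℝ) : E := s • ∫ φ in (0 : ℝ)..(2 * Real.pi), f (P x z s φ)

/-- Open annulus. -/
def ann (x : ℂ) (a b : ℝ) : Set ℂ := {y | a < ‖y - x‖ ∧ ‖y - x‖ < b}

/-- `u - c₀` has square root growth. -/
def Hold (u : ℂ → ℝ) (K : Set ℂ) (x : ℂ) (ρ c₀ : ℝ) : Prop :=
  ∀ y, y ∉ K → ‖y - x‖ ≤ ρ / 2 → |u y - c₀| ≤ 30 * √‖y - x‖

/-- The radial cut-off, equal to `b - a` up to `a` and to `0` from `b` on. -/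
def chi (a b s : ℝ) : ℝ := b - max a (min s b)

/-- A small continuous vector field on `[a, b]`. -/
structure Fld (W : ℝ → ℂ) (a b t : ℝ) : Prop where
  pos : 0 < a
  le : a ≤ b
  cont : ContinuousOn W (Icc a b)
  bd : ∀ s ∈ Icc a b, ‖W s‖ ≤ t
  half : t ≤ 1 / 2

/-- The displacement. -/
def V (W : ℝ → ℂ) (a b s : ℝ) : ℂ := ∫ σ in (max a (min s b))..b, W σ

/-- The deformation. -/
def Phi (W : ℝ → ℂ) (x : ℂ) (a b : ℝ) (y : ℂ) : ℂ := y + V W a b ‖y - x‖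

/-- The derivative `h ↦ h - ⟪ν, h⟫ w` of the deformation. -/
def LL (ν w : ℂ) : ℂ →L[ℝ] ℂ := ContinuousLinearMap.id ℝ ℂ - (innerSL ℝ ν).smulRight w

/-- Its inverse. -/
def LI (ν w : ℂ) : ℂ →L[ℝ] ℂ :=
  ContinuousLinearMap.id ℝ ℂ + (innerSL ℝ ν).smulRight ((1 - inner ℝ ν w)⁻¹ • w)

end

end Vale.Agent.P128.T
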