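import Vale.Agent.P128.T.Phi

/-! P128 T/DirC (TASK, about 250 lines): the Dirichlet energy of the competitor.
`closedBall x b \ Φ '' K = Φ '' (closedBall x b \ K)` (`image_ball`) is contained in `Φ '' (ball x a \ K) ∪ Φ '' (ann x a b \ K) ∪ Φ '' sphere x a ∪ Φ '' sphere x b`, the last two are spheres (`Phi_in`, `Phi_out`), null.
On both pieces use `lintegral_image_eq_lintegral_abs_det_fderiv_mul` (derivative `id`, resp. `LL`); `fderiv (u ∘ Φ.symm) (Φ y) = (fderiv u y).comp (LI ..)` by `exists_equiv`,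
`HasFDerivAt.of_local_left_inverse` (or `Homeomorph.toOpenPartialHomeomorph`, `hasFDerivAt_symm`) and the chain rule. `alg`, `fderiv_eq`, `norm_gr`; `ofReal_integral_eq_lintegral_ofReal`,
`int_g2`, `D_sub`, `dir_eq`, `integral_re`. Helper names end with `_DirC`. -/

namespace Vale.Agent.P128.T

open MeasureTheory Set Metric Filter Topology
open scoped ENNReal ComplexConjugate

noncomputable section

variable {Ω K : Set ℂ} {ε ρ a b t c₀ : ℝ} {wk : Prop} {u : ℂ → ℝ} {x : ℂ} {z z' W : ℝ → ℂ}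

theorem ann_sub_DirC (hb : b ≤ ρ) : ann x a b ⊆ closedBall x ρ := fun _ hy =>
  mem_closedBall_iff_norm.2 (hy.2.le.trans hb)

theorem Tip.int_W (h : Tip Ω ε wk u K x ρ z z') (hF : Fld W a b t) (hb : b ≤ ρ) :
    IntegrableOn (fun y => conj (W ‖y - x‖) * fl u x y) (ann x a b) := by
  have h1 : ContinuousOn (fun y : ℂ => conj (W ‖y - x‖)) (ann x a b) :=
    Complex.continuous_conj.comp_continuousOn (hF.cont.comp
      (continuous_id.sub continuous_const).norm.continuousOn fun y hy => ⟨hy.1.le, hy.2.le⟩)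
  refine Integrable.bdd_mul (c := t) (h.int_fl.mono_set (ann_sub_DirC hb))
    (h1.aestronglyMeasurable (measurableSet_ann x a b)) ?_
  refine (ae_restrict_iff' (measurableSet_ann x a b)).2 (Eventually.of_forall fun y hy => ?_)
  rw [Complex.norm_conj]
  exact hF.bd _ ⟨hy.1.le, hy.2.le⟩

theorem piece_DirC {Φ : ℂ ≃ₜ ℂ} {S : Set ℂ} (hS : MeasurableSet S) {w : ℂ → ℂ} (ht : t ≤ 1 / 2)
    (h : ∀ y ∈ S, y ≠ x ∧ DifferentiableAt ℝ u y ∧ ‖w y‖ ≤ t ∧
      HasFDerivAt Φ (LL (nu x y) (w y)) y) :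
    Dir (fun y => u (Φ.symm y)) (Φ '' S) ≤ ∫⁻ y in S, ENNReal.ofReal
      (g2 u y + (conj (w y) * fl u x y).re + 2 * t ^ 2 * g2 u y) := by
  rw [Dir, lintegral_image_eq_lintegral_abs_det_fderiv_mul volume hS
    (fun y hy => (h y hy).2.2.2.hasFDerivWithinAt) Φ.injective.injOn]
  refine setLIntegral_mono' hS fun y hy => ?_
  obtain ⟨h1, h2, h3, h4⟩ := h y hy
  have h5 : inner ℝ (nu x y) (w y) ≠ (1 : ℝ) := by
    have := real_inner_le_norm (nu x y) (w y)
    rw [norm_nu h1] at this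
    linarith
  obtain ⟨e, e1, e2⟩ := exists_equiv h5
  have h6 : HasFDerivAt Φ.symm (e.symm : ℂ →L[ℝ] ℂ) (Φ y) :=
    HasFDerivAt.of_local_left_inverse Φ.symm.continuous.continuousAt
      (by rw [Φ.symm_apply_apply, e1]; exact h4) (Eventually.of_forall Φ.apply_symm_apply)
  have h7 : fderiv ℝ (fun y => u (Φ.symm y)) (Φ y) = (fderiv ℝ u y).comp (LI (nu x y) (w y)) := by
    rw [← e2]
    refine HasFDerivAt.fderiv (HasFDerivAt.comp (Φ y) (g := u) ?_ h6)
    rw [Φ.symm_apply_apply]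
    exact h2.hasFDerivAt
  have h8 := alg (norm_nu h1) h3 ht (fderiv_eq u y)
  rw [h7, ← ofReal_norm_eq_enorm, ← ENNReal.ofReal_pow (norm_nonneg _),
    ← ENNReal.ofReal_mul (abs_nonneg _)]
  refine ENNReal.ofReal_le_ofReal ?_
  rw [norm_gr] at h8
  exact h8

theorem cover_DirC (hF : Fld W a b t) {Φ : ℂ ≃ₜ ℂ} (hΦ : ∀ y, Φ y = Phi W x a b y) :
    closedBall x b \ Φ '' K ⊆ (Φ '' (ball x a \ K) ∪ Φ '' (ann x a b \ K)) ∪
      (sphere (x + V W a b a) a ∪ sphere x b) := by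
  rintro p ⟨hp, hK⟩
  rw [← hF.image_ball hΦ (ball_subset_closedBall (x := x) (ε := b))] at hp
  obtain ⟨y, hy, rfl⟩ := hp
  have hy' : y ∉ K := fun hh => hK (mem_image_of_mem _ hh)
  rw [mem_closedBall_iff_norm] at hy
  rcases lt_trichotomy ‖y - x‖ a with h1 | h1 | h1
  · exact Or.inl (Or.inl (mem_image_of_mem _ ⟨mem_ball_iff_norm.2 h1, hy'⟩))
  · refine Or.inr (Or.inl ?_)
    rw [hΦ, hF.Phi_in h1.le, mem_sphere_iff_norm, add_sub_add_right_eq_sub]
    exact h1
  · rcases hy.lt_or_eq with h2 | h2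
    · exact Or.inl (Or.inr (mem_image_of_mem _ ⟨⟨h1, h2⟩, hy'⟩))
    · refine Or.inr (Or.inr ?_)
      rw [hΦ, hF.Phi_out h2.ge, mem_sphere_iff_norm]
      exact h2

theorem inner_DirC (h : Tip Ω ε wk u K x ρ z z') (hF : Fld W a b t) (hb : b ≤ ρ) {Φ : ℂ ≃ₜ ℂ}
    (hΦ : ∀ y, Φ y = Phi W x a b y) :
    Dir (fun y => u (Φ.symm y)) (Φ '' (ball x a \ K)) ≤ ENNReal.ofReal (D u K x a) := by
  have hm : MeasurableSet (ball x a \ K) := measurableSet_ball.diff h.am.closed.measurableSet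
  refine (piece_DirC (x := x) (t := 0) (w := fun _ => 0) hm (by norm_num)
    fun y hy => ⟨fun e => hy.2 (e ▸ h.mem), h.am.diff y ⟨h.sub (closedBall_subset_closedBall
      (hF.le.trans hb) (ball_subset_closedBall hy.1)), hy.2⟩, by simp, ?_⟩).trans ?_
  · have e : LL (nu x y) 0 = ContinuousLinearMap.id ℝ ℂ := by
      ext v <;> simp [LL]
    rw [e]
    refine ((hasFDerivAt_id y).add_const (V W a b a)).congr_of_eventuallyEq ?_
    filter_upwards [isOpen_ball.mem_nhds hy.1] with p hp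
    rw [hΦ, hF.Phi_in (mem_ball_iff_norm.1 hp).le]
    rfl
  · rw [← (h.dir_eq (hF.le.trans hb)).1, Dir]
    refine le_trans (le_of_eq (lintegral_congr fun y => ?_))
      (lintegral_mono_set (diff_subset_diff_left ball_subset_closedBall))
    rw [← ofReal_norm_eq_enorm, ← ENNReal.ofReal_pow (norm_nonneg _)]
    simp [g2]

theorem pos_DirC (hF : Fld W a b t) {y : ℂ} (hy : y ∈ ann x a b) :
    0 ≤ g2 u y + (conj (W ‖y - x‖) * fl u x y).re + 2 * t ^ 2 * g2 u y := by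
  have h1 := hF.bd _ ⟨hy.1.le, hy.2.le⟩
  have h2 := norm_fl u x y
  have h3 : 0 ≤ g2 u y := sq_nonneg _
  have h4 := (abs_le.1 (Complex.abs_re_le_norm (conj (W ‖y - x‖) * fl u x y))).1
  rw [norm_mul, Complex.norm_conj] at h4
  have h5 : ‖W ‖y - x‖‖ * ‖fl u x y‖ ≤ 1 * g2 u y :=
    mul_le_mul (by linarith [hF.half]) h2 (norm_nonneg _) zero_le_one
  have h6 : 0 ≤ 2 * t ^ 2 * g2 u y := by positivity
  linarith

theorem Tip.dir_comp (h : Tip Ω ε wk u K x ρ z z') (hF : Fld W a b t) (hb : b ≤ ρ) {Φ : ℂ ≃ₜ ℂ}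
    (hΦ : ∀ y, Φ y = Phi W x a b y) :
    ∃ E : ℝ, 0 ≤ E ∧ Dir (fun y => u (Φ.symm y)) (closedBall x b \ Φ '' K) ≤ ENNReal.ofReal E ∧
      E ≤ D u K x b + (∫ y in ann x a b, conj (W ‖y - x‖) * fl u x y).re +
        2 * t ^ 2 * D u K x b := by
  have hA := measurableSet_ann x a b
  have i1 : IntegrableOn (g2 u) (ann x a b) := h.int_g2.mono_set (ann_sub_DirC hb)
  have i2 := h.int_W hF hb
  have i3 : IntegrableOn (fun y => (conj (W ‖y - x‖) * fl u x y).re) (ann x a b) := i2.re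
  have i4 : IntegrableOn (fun y => g2 u y + (conj (W ‖y - x‖) * fl u x y).re) (ann x a b) :=
    i1.add i3
  have i5 : IntegrableOn (fun y => 2 * t ^ 2 * g2 u y) (ann x a b) := i1.const_mul _
  have i6 : IntegrableOn (fun y => g2 u y + (conj (W ‖y - x‖) * fl u x y).re +
      2 * t ^ 2 * g2 u y) (ann x a b) := i4.add i5
  have hp : 0 ≤ᵐ[volume.restrict (ann x a b)] fun y =>
      g2 u y + (conj (W ‖y - x‖) * fl u x y).re + 2 * t ^ 2 * g2 u y :=
    (ae_restrict_iff' hA).2 (Eventually.of_forall fun y hy => pos_DirC hF hy)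
  have hD : 0 ≤ D u K x a := ENNReal.toReal_nonneg
  have hI : 0 ≤ ∫ y in ann x a b,
      (g2 u y + (conj (W ‖y - x‖) * fl u x y).re + 2 * t ^ 2 * g2 u y) := integral_nonneg_of_ae hp
  refine ⟨D u K x a + ∫ y in ann x a b,
    (g2 u y + (conj (W ‖y - x‖) * fl u x y).re + 2 * t ^ 2 * g2 u y), add_nonneg hD hI, ?_, ?_⟩
  · have h0 : volume (sphere (x + V W a b a) a ∪ sphere x b) = 0 :=
      measure_union_null (Measure.addHaar_sphere _ _ _) (Measure.addHaar_sphere _ _ _)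
    have h2 : Dir (fun y => u (Φ.symm y)) (Φ '' (ann x a b \ K)) ≤ ENNReal.ofReal
        (∫ y in ann x a b, (g2 u y + (conj (W ‖y - x‖) * fl u x y).re + 2 * t ^ 2 * g2 u y)) := by
      rw [ofReal_integral_eq_lintegral_ofReal i6 hp]
      refine (piece_DirC (x := x) (w := fun y => W ‖y - x‖) (hA.diff h.am.closed.measurableSet)
        hF.half fun y hy => ⟨fun e => hy.2 (e ▸ h.mem),
          h.am.diff y ⟨h.sub (ann_sub_DirC hb hy.1), hy.2⟩, hF.bd _ ⟨hy.1.1.le, hy.1.2.le⟩,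
          ?_⟩).trans (lintegral_mono_set diff_subset)
      rw [show (Φ : ℂ → ℂ) = Phi W x a b from funext hΦ]
      exact hF.hasFDerivAt hy.1
    rw [ENNReal.ofReal_add hD hI]
    refine le_trans ?_ (add_le_add (inner_DirC h hF hb hΦ) h2)
    unfold Dir
    refine (lintegral_mono_set (cover_DirC hF hΦ)).trans ((lintegral_union_le _ _ _).trans ?_)
    rw [setLIntegral_measure_zero _ _ h0, add_zero]
    exact lintegral_union_le _ _ _
  · have e1 := integral_re i2
    simp only [RCLike.re_to_complex] at e1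
    rw [integral_add i4 i5, integral_add i1 i3, integral_const_mul,
      ← h.D_sub hF.le hb, e1]
    have : 0 ≤ 2 * t ^ 2 * D u K x a := by positivity
    linarith

end

end Vale.Agent.P128.T
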