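import Vale.Agent.P128.T.Basic

/-! P128 T/Grad (TASK, about 100 lines): pointwise gradient bound.
`grad_ball`: `AM0.grad_le`, `AM0.upper_real` (`D ≤ 8 d`), `8 / π ≤ 3`.
`ball_sub`: for `k = z τ`: `‖P - k‖ ≥ |s - τ|` and `≥ ‖P - z s‖ - 2 |s - τ|` (`lipz`), so `≥ ‖P - z s‖ / 3 = (2/3) s sin (φ/2)` (`Complex.norm_exp_I_mul_ofReal_sub_one`); `k = x` has distance `s`.
Helper names end with `_Grad`. -/

namespace Vale.Agent.P128.T

open MeasureTheory Set Metric Filter Topology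
open scoped ENNReal ComplexConjugate

noncomputable section

variable {Ω K : Set ℂ} {ε ρ a b t c₀ : ℝ} {wk : Prop} {u : ℂ → ℝ} {x : ℂ} {z z' W : ℝ → ℂ}

theorem Tip.grad_ball (h : Tip Ω ε wk u K x ρ z z') {y : ℂ} {d : ℝ} (hd : 0 < d)
    (hs : closedBall y d ⊆ Ω \ K) : g2 u y ≤ 3 / d := by
  have hB : closedBall y d ⊆ Ω := fun w hw => (hs hw).1
  have hK : Disjoint (ball y d) K :=
    Set.disjoint_left.2 fun w hw hk => (hs (ball_subset_closedBall hw)).2 hk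
  have h1 := (h.am.grad_le hd hB hK).1
  obtain ⟨-, -, -, -, -, -, h2, h3, h4⟩ := h.am.upper_real hd hB
  have h5 : D u K y d ≤ 8 * d := by linarith
  have hpi := Real.pi_gt_three
  unfold g2
  refine le_trans h1 ?_
  rw [div_le_div_iff₀ (by positivity) hd]
  have h6 : D u K y d * d ≤ 8 * d * d := mul_le_mul_of_nonneg_right h5 hd.le
  have h7 : 3 * (d * d) ≤ Real.pi * (d * d) := mul_le_mul_of_nonneg_right hpi.le (by positivity)
  nlinarith [mul_pos hd hd]

theorem sin_Grad {φ : ℝ} (hφ : φ ∈ Ioo 0 (2 * Real.pi)) : 0 < Real.sin (φ / 2) :=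
  Real.sin_pos_of_pos_of_lt_pi (by linarith [hφ.1]) (by linarith [hφ.2])

theorem Tip.ball_sub (h : Tip Ω ε wk u K x ρ z z') {s φ : ℝ} (hs : s ∈ Ioc 0 (ρ / 2))
    (hφ : φ ∈ Ioo 0 (2 * Real.pi)) :
    closedBall (P x z s φ) (s * Real.sin (φ / 2) / 2) ⊆ Ω \ K := by
  have hρ := h.pos
  have hs0 := hs.1
  have hs1 := hs.2
  have hs' : s ∈ Ioc 0 ρ := ⟨hs0, by linarith⟩
  have hσ0 := sin_Grad hφ
  have hσ1 := Real.sin_le_one (φ / 2)
  have hPn := (h.P_norm hs' φ).1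
  have hPz : ‖P x z s φ - z s‖ = 2 * (s * Real.sin (φ / 2)) := by
    have e : P x z s φ - z s = (z s - x) * (Complex.exp (Complex.I * φ) - 1) := by
      unfold P
      rw [mul_comm (φ : ℂ) Complex.I]
      ring
    rw [e, norm_mul, h.norm s hs', Complex.norm_exp_I_mul_ofReal_sub_one, Real.norm_eq_abs,
      abs_of_pos (by positivity)]
    ring
  have hd0 : 0 < s * Real.sin (φ / 2) := mul_pos hs0 hσ0
  have hd1 : s * Real.sin (φ / 2) ≤ s := mul_le_of_le_one_right hs0.le hσ1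
  generalize s * Real.sin (φ / 2) = d at *
  generalize P x z s φ = p at *
  intro y hy
  rw [mem_closedBall, dist_eq_norm] at hy
  have hyx : y ∈ closedBall x ρ := by
    rw [mem_closedBall, dist_eq_norm]
    have h1 := norm_sub_le_norm_sub_add_norm_sub y p x
    linarith
  refine ⟨h.sub hyx, fun hk => ?_⟩
  have hm : y ∈ insert x (z '' Ioc 0 ρ) := by
    rw [← h.eqK]; exact ⟨hk, hyx⟩
  rcases hm with rfl | ⟨τ, hτ, rfl⟩
  · rw [norm_sub_rev, hPn] at hy
    linarith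
  · have h1 := h.lipz hτ hs'
    have h2 := abs_norm_sub_norm_le (z τ - x) (p - x)
    rw [h.norm τ hτ, hPn, sub_sub_sub_cancel_right] at h2
    have h3 := norm_sub_le_norm_sub_add_norm_sub p (z τ) (z s)
    rw [norm_sub_rev p (z τ)] at h3
    linarith

theorem Tip.grad_le (h : Tip Ω ε wk u K x ρ z z') {s φ : ℝ} (hs : s ∈ Ioc 0 (ρ / 2))
    (hφ : φ ∈ Ioo 0 (2 * Real.pi)) : g2 u (P x z s φ) ≤ 6 / (s * Real.sin (φ / 2)) := by
  have hd0 : 0 < s * Real.sin (φ / 2) := mul_pos hs.1 (sin_Grad hφ)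
  have h1 := h.grad_ball (half_pos hd0) (h.ball_sub hs hφ)
  refine le_trans h1 (le_of_eq ?_)
  field_simp
  norm_num

end

end Vale.Agent.P128.T
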