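import Vale.Agent.P128.T.Grad

/-! P128 T/Hold (TASK, about 200 lines): `u` has square root growth at the tip.
`hasDerivAt_circ`: chain rule, `P_norm`. `osc`: for `φ ≤ π` use `sin (φ/2) ≥ φ / π` (`Real.mul_le_sin`), so `|d/dφ| ≤ √(6 π s) / √φ`, compare with `2 √(6 π s) √φ`
(`image_norm_le_of_norm_deriv_right_le_deriv_boundary` or monotonicity of `B ± U`); for `φ ≥ π` symmetric (`φ ↦ 2π - φ`). `c s = u (P x z s π) = u (2 x - z s)` has `|c'| ≤ 2 √6 / √s`,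
so `|c s - c s'| ≤ 4 √6 |√s - √s'|`; `c₀` is the limit at `0` (for example `sSup` of the monotone function `c s - 10 √s` as `s ↓ 0`, or a Cauchy sequence). `exists_P`.
Helper names end with `_Hold`. -/

namespace Vale.Agent.P128.T

open MeasureTheory Set Metric Filter Topology
open scoped ENNReal ComplexConjugate

noncomputable section

variable {Ω K : Set ℂ} {ε ρ a b t c₀ : ℝ} {wk : Prop} {u : ℂ → ℝ} {x : ℂ} {z z' W : ℝ → ℂ}

theorem cmp_Hold {f f' : ℝ → ℝ} {C : ℝ} (ha : 0 < a) (hab : a ≤ b)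
    (hf : ∀ t ∈ Icc a b, HasDerivAt f (f' t) t) (hb : ∀ t ∈ Icc a b, |f' t| ≤ C / √t) :
    |f b - f a| ≤ 2 * C * (√b - √a) := by
  refine image_norm_le_of_norm_deriv_right_le_deriv_boundary' (f := fun t => f t - f a) (f' := f')
    (fun t ht => ((hf t ht).sub_const _).continuousAt.continuousWithinAt)
    (fun t ht => ((hf t (Ico_subset_Icc_self ht)).sub_const _).hasDerivWithinAt)
    (B := fun t => 2 * C * (√t - √a)) (B' := fun t => C / √t) (by simp) (by fun_prop)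
    (fun t ht => ?_) (fun t ht => hb t (Ico_subset_Icc_self ht)) ⟨hab, le_rfl⟩
  refine (((Real.hasDerivAt_sqrt (ha.trans_le ht.1).ne').sub_const _).const_mul
    (2 * C)).hasDerivWithinAt.congr_deriv ?_
  ring

theorem sq_Hold {v c t : ℝ} (hc : 0 ≤ c) (ht : 0 < t) (h : v ^ 2 ≤ c ^ 2 / t) : |v| ≤ c / √t :=
  abs_le.2 (abs_le_of_sq_le_sq' (by rwa [div_pow, Real.sq_sqrt ht.le]) (by positivity))

theorem Tip.hasDerivAt_circ (h : Tip Ω ε wk u K x ρ z z') {s φ : ℝ} (hs : s ∈ Ioc 0 ρ)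
    (hφ : φ ∈ Ioo 0 (2 * Real.pi)) :
    HasDerivAt (fun φ => u (P x z s φ)) (s * pp u x (P x z s φ)) φ := by
  obtain ⟨-, h1, h2⟩ := h.P_norm hs φ
  have h3 : HasDerivAt (P x z s) (s • (Complex.I * nu x (P x z s φ))) φ := by
    refine ((((hasDerivAt_id' φ).ofReal_comp.mul_const Complex.I).cexp.const_mul
      (z s - x)).const_add x).congr_deriv ?_
    rw [h1, h2, Complex.real_smul]
    simp only [Complex.ofReal_one]
    ring
  refine ((h.am.diff _ (h.P_mem hs hφ)).hasFDerivAt.comp_hasDerivAt φ h3).congr_deriv ?_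
  rw [map_smul, smul_eq_mul, pp]

theorem pp_Hold (h : Tip Ω ε wk u K x ρ z z') {s φ τ : ℝ} (hs : s ∈ Ioc 0 (ρ / 2))
    (hφ : φ ∈ Ioo 0 (2 * Real.pi)) (h0 : 0 < τ) (h1 : τ ≤ Real.pi)
    (e : Real.sin (φ / 2) = Real.sin (τ / 2)) : |s * pp u x (P x z s φ)| ≤ 5 * √s / √τ := by
  have hs0 := hs.1
  have hn := (h.P_norm ⟨hs.1, by linarith [hs.2, h.pos]⟩ φ).1
  have h2 := h.grad_le hs hφ
  rw [g2_eq (x := x) fun h => by simp [h, hs.1.ne] at hn, e] at h2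
  have h3 := Real.mul_le_sin (x := τ / 2) (by linarith) (by linarith)
  have h4 : τ / 4 ≤ Real.sin (τ / 2) := by
    refine le_trans ?_ h3
    rw [div_mul_eq_mul_div, le_div_iff₀ Real.pi_pos]
    nlinarith [Real.pi_le_four]
  have h5 : pp u x (P x z s φ) ^ 2 ≤ 6 / (s * (τ / 4)) :=
    ((le_add_of_nonneg_right (sq_nonneg _)).trans h2).trans (by gcongr)
  refine sq_Hold (by positivity) h0 ?_
  rw [mul_pow, mul_pow, Real.sq_sqrt hs.1.le]
  refine (mul_le_mul_of_nonneg_left h5 (sq_nonneg s)).trans ?_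
  rw [show s ^ 2 * (6 / (s * (τ / 4))) = 24 * s / τ by field_simp; norm_num]
  gcongr
  norm_num

theorem Tip.osc (h : Tip Ω ε wk u K x ρ z z') {s φ : ℝ} (hs : s ∈ Ioc 0 (ρ / 2))
    (hφ : φ ∈ Ioo 0 (2 * Real.pi)) :
    |u (P x z s φ) - u (P x z s Real.pi)| ≤ 20 * √s := by
  have hs' : s ∈ Ioc 0 ρ := ⟨hs.1, by linarith [hs.2, h.pos]⟩
  have hp := Real.pi_pos
  have key : ∀ τ : ℝ, 2 * (5 * √s) * (√Real.pi - √τ) ≤ 20 * √s := fun τ => by
    have h1 : √Real.pi ≤ 2 := Real.sqrt_le_iff.2 ⟨zero_le_two, by linarith [Real.pi_le_four]⟩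
    nlinarith [Real.sqrt_nonneg s, Real.sqrt_nonneg τ]
  rcases le_total φ Real.pi with h1 | h1
  · have h2 : ∀ t ∈ Icc φ Real.pi, t ∈ Ioo 0 (2 * Real.pi) := fun t ht =>
      ⟨hφ.1.trans_le ht.1, by linarith [ht.2]⟩
    rw [abs_sub_comm]
    exact (cmp_Hold hφ.1 h1 (fun t ht => h.hasDerivAt_circ hs' (h2 t ht))
      fun t ht => pp_Hold h hs (h2 t ht) (h2 t ht).1 ht.2 rfl).trans (key φ)
  · have h2 : ∀ t ∈ Icc (2 * Real.pi - φ) Real.pi, 2 * Real.pi - t ∈ Ioo 0 (2 * Real.pi) :=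
      fun t ht => ⟨by linarith [ht.2], by linarith [ht.1, hφ.2]⟩
    have h3 := (cmp_Hold (f := fun t => u (P x z s (2 * Real.pi - t))) (sub_pos.2 hφ.2)
      (by linarith) (fun t ht => (h.hasDerivAt_circ hs' (h2 t ht)).comp_const_sub _ t)
      fun t ht => (abs_neg _).trans_le (pp_Hold h hs (h2 t ht) (by linarith [(h2 t ht).2]) ht.2
        (by rw [← Real.sin_pi_sub]; congr 1; ring))).trans (key _)
    rwa [sub_sub_cancel, show 2 * Real.pi - Real.pi = Real.pi by ring, abs_sub_comm] at h3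

theorem Tip.anti (h : Tip Ω ε wk u K x ρ z z') :
    ∃ c₀, ∀ s ∈ Ioc 0 (ρ / 2), |u (P x z s Real.pi) - c₀| ≤ 10 * √s := by
  have hp := Real.pi_pos
  have hφ : Real.pi ∈ Ioo 0 (2 * Real.pi) := ⟨hp, by linarith⟩
  have h1 : ∀ a ∈ Ioc 0 (ρ / 2), ∀ b ∈ Ioc 0 (ρ / 2), a ≤ b →
      |u (P x z b Real.pi) - u (P x z a Real.pi)| ≤ 2 * 5 * (√b - √a) := by
    intro a ha b hb hab
    have h2 : ∀ t ∈ Icc a b, t ∈ Ioc 0 (ρ / 2) := fun t ht => ⟨ha.1.trans_le ht.1, ht.2.trans hb.2⟩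
    have h3 : ∀ t ∈ Icc a b, t ∈ Ioc 0 ρ := fun t ht =>
      ⟨(h2 t ht).1, by linarith [(h2 t ht).2, h.pos]⟩
    refine cmp_Hold (f := fun s => u (P x z s Real.pi)) ha.1 hab
      (fun t ht => (h.am.diff _ (h.P_mem (h3 t ht) hφ)).hasFDerivAt.comp_hasDerivAt t
        ((((h.deriv t (h3 t ht)).sub_const x).mul_const _).const_add x)) fun t ht => ?_
    have h4 := h.grad_le (h2 t ht) hφ
    rw [Real.sin_pi_div_two, mul_one] at h4
    have h5 := sq_Hold (c := 5 / 2) (by norm_num) (h2 t ht).1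
      (h4.trans (div_le_div_of_nonneg_right (by norm_num) (h2 t ht).1.le))
    rw [abs_norm] at h5
    refine ((fderiv ℝ u (P x z t Real.pi)).le_opNorm _).trans ?_
    rw [norm_mul, Complex.norm_exp_ofReal_mul_I, mul_one]
    exact (mul_le_mul h5 (h.bound t (h3 t ht)) (norm_nonneg _) (by positivity)).trans_eq (by ring)
  have hne : (Ioc 0 (ρ / 2)).Nonempty := nonempty_Ioc.2 (half_pos h.pos)
  obtain ⟨c, h2, h3⟩ := exists_between_of_forall_le
    (hne.image fun s => u (P x z s Real.pi) - 10 * √s)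
    (hne.image fun s => u (P x z s Real.pi) + 10 * √s) (by
      rintro _ ⟨a, ha, rfl⟩ _ ⟨b, hb, rfl⟩
      have := Real.sqrt_nonneg a
      have := Real.sqrt_nonneg b
      rcases le_total a b with h4 | h4
      · linarith [(abs_le.1 (h1 a ha b hb h4)).1]
      · linarith [(abs_le.1 (h1 b hb a ha h4)).2])
  exact ⟨c, fun s hs => abs_le.2 ⟨by linarith [h3 ⟨s, hs, rfl⟩], by linarith [h2 ⟨s, hs, rfl⟩]⟩⟩

theorem Tip.hold (h : Tip Ω ε wk u K x ρ z z') : ∃ c₀, Hold u K x ρ c₀ := by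
  obtain ⟨c, hc⟩ := h.anti
  refine ⟨c, fun y hy hr => ?_⟩
  obtain ⟨h1, φ, hφ, e⟩ := h.exists_P hy (by linarith [h.pos])
  have h2 := h.osc ⟨h1.1, hr⟩ hφ
  rw [← e] at h2
  linarith [abs_sub_le (u y) (u (P x z ‖y - x‖ Real.pi)) c, hc _ ⟨h1.1, hr⟩]

end

end Vale.Agent.P128.T
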