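import Vale.Agent.P128.T.Phi

/-! P128 T/LenC (TASK, about 150 lines): the length of `K` and of the deformed set.
`K ∩ closedBall x b` is the union of `K ∩ closedBall x a` and `z '' Ioc a b` (`eqK`, `norm`), separated by the measurable set `closedBall x a`. `Φ` is a translation on the first part
(`Phi_in`, `Isometry.hausdorffMeasure_image`), and `s ↦ Φ (z s) = z s + V W a b s` has derivative `z' s - W s` within `Icc a b` (`hasDerivWithinAt_V`); `arclen` of TA1 (`z` is injective by `norm`, a point has `μH[1] = 0`).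
`norm_sub_le`: square both sides. Helper names end with `_LenC`. -/

namespace Vale.Agent.P128.T

open MeasureTheory Set Metric Filter Topology
open scoped ENNReal ComplexConjugate

noncomputable section

variable {Ω K : Set ℂ} {ε ρ a b t c₀ : ℝ} {wk : Prop} {u : ℂ → ℝ} {x : ℂ} {z z' W : ℝ → ℂ}

theorem Tip.zmem_LenC (h : Tip Ω ε wk u K x ρ z z') {s : ℝ} (hs : s ∈ Ioc 0 ρ) : z s ∈ K := by
  have : z s ∈ K ∩ closedBall x ρ := by
    rw [h.eqK]
    exact Or.inr ⟨s, hs, rfl⟩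
  exact this.1

theorem Tip.len_low (h : Tip Ω ε wk u K x ρ z z') (ha : 0 < a) (hab : a ≤ b) (hb : b ≤ ρ) :
    μH[1] (K ∩ closedBall x a) + ENNReal.ofReal (∫ s in a..b, ‖z' s‖) ≤
      μH[1] (K ∩ closedBall x b) := by
  have hI : ∀ s ∈ Icc a b, s ∈ Ioc 0 ρ := fun s hs => ⟨lt_of_lt_of_le ha hs.1, hs.2.trans hb⟩
  have h1 := (arclen (γ := z) (γ' := z') hab
    (fun s hs => (h.deriv s (hI s hs)).hasDerivWithinAt) (h.cont.mono hI)).2 (by
      intro s hs s' hs' e
      rw [← h.norm s (hI s hs), e, h.norm s' (hI s' hs')])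
  rw [← h1, ← measure_inter_add_sdiff (μ := μH[1]) (K ∩ closedBall x b)
    (measurableSet_closedBall (x := x) (ε := a))]
  refine add_le_add (measure_mono fun y hy => ⟨⟨hy.1, closedBall_subset_closedBall hab hy.2⟩, hy.2⟩)
    ?_
  have := Measure.nullSingletonClass_hausdorff ℂ (d := 1) one_pos
  have h2 : z '' Icc a b ⊆ {z a} ∪ ((K ∩ closedBall x b) \ closedBall x a) := by
    rintro _ ⟨s, hs, rfl⟩
    rcases eq_or_lt_of_le hs.1 with e | e
    · exact Or.inl (by rw [e]; rfl)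
    · refine Or.inr ⟨⟨h.zmem_LenC (hI s hs), ?_⟩, ?_⟩
      · rw [mem_closedBall_iff_norm, h.norm s (hI s hs)]
        exact hs.2
      · rw [mem_closedBall_iff_norm, h.norm s (hI s hs)]
        exact not_le.2 e
  refine (measure_mono h2).trans ((measure_union_le _ _).trans ?_)
  rw [measure_singleton, zero_add]

theorem Tip.len_comp (h : Tip Ω ε wk u K x ρ z z') (hF : Fld W a b t) (hb : b ≤ ρ) {Φ : ℂ ≃ₜ ℂ}
    (hΦ : ∀ y, Φ y = Phi W x a b y) :
    μH[1] (Φ '' K ∩ closedBall x b) ≤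
      μH[1] (K ∩ closedBall x a) + ENNReal.ofReal (∫ s in a..b, ‖z' s - W s‖) := by
  have ha := hF.pos
  have hI : ∀ s ∈ Icc a b, s ∈ Ioc 0 ρ := fun s hs => ⟨lt_of_lt_of_le ha hs.1, hs.2.trans hb⟩
  have h1 := (arclen (γ := fun s => z s + V W a b s) (γ' := fun s => z' s - W s) hF.le
    (fun s hs => by
      have := (h.deriv s (hI s hs)).hasDerivWithinAt.add (hF.hasDerivWithinAt_V hs)
      rw [sub_eq_add_neg]
      exact this)
    ((h.cont.mono hI).sub hF.cont)).1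
  have h2 : Φ '' K ∩ closedBall x b ⊆ (fun y => y + V W a b a) '' (K ∩ closedBall x a) ∪
      (fun s => z s + V W a b s) '' Icc a b := by
    rintro _ ⟨⟨y, hy, rfl⟩, hyb⟩
    have hb' : ‖y - x‖ ≤ b := by
      rcases le_total ‖y - x‖ b with e | e
      · exact e
      · rw [hΦ, hF.Phi_out e, mem_closedBall_iff_norm] at hyb
        exact hyb
    rcases le_or_gt ‖y - x‖ a with e | e
    · exact Or.inl ⟨y, ⟨hy, mem_closedBall_iff_norm.2 e⟩, by rw [hΦ, hF.Phi_in e]⟩
    · have h3 : y ∈ K ∩ closedBall x ρ := ⟨hy, mem_closedBall_iff_norm.2 (hb'.trans hb)⟩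
      rw [h.eqK] at h3
      rcases h3 with rfl | ⟨s, hs, rfl⟩
      · rw [sub_self, norm_zero] at e
        linarith
      · rw [h.norm s hs] at e hb'
        refine Or.inr ⟨s, ⟨e.le, hb'⟩, ?_⟩
        rw [hΦ, Phi, h.norm s hs]
  refine (measure_mono h2).trans ((measure_union_le _ _).trans (add_le_add ?_ h1))
  rw [(isometry_add_right (V W a b a)).hausdorffMeasure_image (Or.inl zero_le_one)]

theorem norm_sub_le {v w : ℂ} (hv : 1 ≤ ‖v‖) (hw : ‖w‖ ≤ t) (ht : t ≤ 1 / 2) :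
    ‖v - w‖ ≤ ‖v‖ - (conj w * (v / (‖v‖ : ℝ))).re + t ^ 2 := by
  have hn : 0 < ‖v‖ := by linarith
  set c := (conj w * (v / (‖v‖ : ℝ))).re with hc
  have h1 : |c| ≤ ‖w‖ := by
    refine (Complex.abs_re_le_norm _).trans ?_
    rw [norm_mul, norm_div, Complex.norm_conj, Complex.norm_real, norm_norm, div_self hn.ne',
      mul_one]
  have h2 : c * ‖v‖ = (v * conj w).re := by
    rw [hc, ← mul_div_assoc, Complex.div_ofReal_re, div_mul_cancel₀ _ hn.ne', mul_comm]
  have h3 : ‖v - w‖ ^ 2 = ‖v‖ ^ 2 + ‖w‖ ^ 2 - 2 * (c * ‖v‖) := by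
    rw [h2, Complex.sq_norm, Complex.sq_norm, Complex.sq_norm, Complex.normSq_sub]
  have h4 := abs_le.1 h1
  have h5 : ‖w‖ ^ 2 ≤ t ^ 2 := pow_le_pow_left₀ (norm_nonneg _) hw 2
  have h6 : 1 / 2 ≤ ‖v‖ - c := by linarith [h4.2]
  refine abs_le_of_sq_le_sq' ?_ (by nlinarith [sq_nonneg t]) |>.2
  rw [h3]
  nlinarith [sq_nonneg c, sq_nonneg (t ^ 2), mul_le_mul_of_nonneg_left h6 (sq_nonneg t)]

end

end Vale.Agent.P128.T
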