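import Vale.Agent.P128.T.OutB
import Vale.Agent.P128.T.Hold
import Vale.Agent.P128.T.Circ

/-! P128 T/Pt (TASK, about 200 lines): the pointwise inequality for almost every radius.
At `y = P x z s φ`: `fl u x y * conj (nu x (z s)) = (q + I p)^2 exp (φ I)` (`gr_eq`, `P_norm`), whose real part is `(q² - p²) cos φ - 2 p q sin φ = g2 - 2 (p cos (φ/2) + q sin (φ/2))^2`
(double angle formulas). `circ` with `U φ = u (P x z s φ) - c₀`, `M = 30 √s` (`hold`, `hasDerivAt_circ`, `contOn`, `g2_eq`), `out1`, `out2`, `ε √s ≤ 1`; integrability on almost every circle from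
`polarT` for `g2 u` on `ann x 0 (ρ/2)`. `‖fl‖ ≤ g2`. Helper names end with `_Pt`. -/

namespace Vale.Agent.P128.T

open MeasureTheory Set Metric Filter Topology
open scoped ENNReal ComplexConjugate

noncomputable section

variable {Ω K : Set ℂ} {ε ρ a b t c₀ : ℝ} {wk : Prop} {u : ℂ → ℝ} {x : ℂ} {z z' W : ℝ → ℂ}

theorem ann_sub_Pt {r : ℝ} (hr : r ≤ ρ) : ann x 0 r ⊆ closedBall x ρ := fun y hy => by
  rw [mem_closedBall, dist_eq_norm]
  exact hy.2.le.trans hr

theorem alg_Pt (p q φ : ℝ) {e : ℂ} (he : ‖e‖ = 1) :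
    (conj e * ((((q : ℂ) + Complex.I * (p : ℂ)) * (e * Complex.exp (φ * Complex.I))) ^ 2 *
      conj (e * Complex.exp (φ * Complex.I)))).re =
      p ^ 2 + q ^ 2 - 2 * (p * Real.cos (φ / 2) + q * Real.sin (φ / 2)) ^ 2 := by
  have h1 : e * conj e = 1 := by
    rw [Complex.mul_conj, Complex.normSq_eq_norm_sq, he]
    simp
  have h2 : Complex.exp (φ * Complex.I) * conj (Complex.exp (φ * Complex.I)) = 1 := by
    rw [Complex.mul_conj, Complex.normSq_eq_norm_sq, Complex.norm_exp_ofReal_mul_I]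
    simp
  have h3 : conj e * ((((q : ℂ) + Complex.I * (p : ℂ)) * (e * Complex.exp (φ * Complex.I))) ^ 2 *
      conj (e * Complex.exp (φ * Complex.I))) =
      ((q : ℂ) + Complex.I * (p : ℂ)) ^ 2 * Complex.exp (φ * Complex.I) := by
    rw [map_mul]
    linear_combination (((q : ℂ) + Complex.I * (p : ℂ)) ^ 2 * Complex.exp (φ * Complex.I)) *
      ((e * conj e + 1) * (Complex.exp (φ * Complex.I) * conj (Complex.exp (φ * Complex.I))) * h1
        + h2)
  have hc : Real.cos φ = 2 * Real.cos (φ / 2) ^ 2 - 1 := by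
    rw [← Real.cos_two_mul]
    congr 1
    ring
  have hs : Real.sin φ = 2 * Real.sin (φ / 2) * Real.cos (φ / 2) := by
    rw [← Real.sin_two_mul]
    congr 1
    ring
  have h4 := Real.sin_sq_add_cos_sq (φ / 2)
  rw [h3, pow_two, Complex.mul_re, Complex.exp_ofReal_mul_I_re, Complex.exp_ofReal_mul_I_im, hc, hs]
  simp only [Complex.mul_re, Complex.mul_im, Complex.add_re, Complex.add_im, Complex.ofReal_re,
    Complex.ofReal_im, Complex.I_re, Complex.I_im]
  linear_combination (2 * q ^ 2) * h4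

theorem num_Pt {s r ε n T A Q Dv : ℝ} (hs : 0 < s) (hr : 0 ≤ r) (hrs : r * r = s) (he : 0 ≤ ε)
    (h1 : ε * r ≤ 1) (hT : s * T ≤ 4 * (s * n - A) + 4 * (30 * r) * |Q| + s * Q ^ 2)
    (hA : Dv - 310 * ε * s * r ≤ s * A) (hQ : |s * Q| ≤ 10 * ε * s) :
    8 * (Dv / s) - 7 * (s * n) - 6000 * (ε * r) ≤ s * (n - 2 * T) := by
  have hQ1 : |Q| ≤ 10 * ε := by
    rw [abs_mul, abs_of_pos hs] at hQ
    exact le_of_mul_le_mul_left (by linarith) hs
  have hA1 : Dv / s - 310 * (ε * r) ≤ A := by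
    rw [sub_le_iff_le_add, div_le_iff₀ hs]
    linarith
  have hQ2 : Q ^ 2 ≤ (10 * ε) ^ 2 := by
    rw [← sq_abs]
    exact pow_le_pow_left₀ (abs_nonneg _) hQ1 2
  have h2 : 0 ≤ ε * r := mul_nonneg he hr
  have h3 : s * Q ^ 2 ≤ 100 * (ε * r) := by
    calc s * Q ^ 2 ≤ s * (10 * ε) ^ 2 := mul_le_mul_of_nonneg_left hQ2 hs.le
      _ = 100 * ((ε * r) * (ε * r)) := by rw [← hrs]; ring
      _ ≤ 100 * (ε * r) := by nlinarith
  have h4 : r * |Q| ≤ r * (10 * ε) := mul_le_mul_of_nonneg_left hQ1 hr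
  linarith

theorem Tip.fl_le (h : Tip Ω ε wk u K x ρ z z') :
    ∀ᵐ s, s ∈ Ioo 0 ρ → ‖CI x z (fl u x) s‖ ≤ CI x z (g2 u) s := by
  have hz : ∀ s ∈ Ioo 0 ρ, ‖z s - x‖ = s := fun s hs => h.norm s ⟨hs.1, hs.2.le⟩
  filter_upwards [(polarT le_rfl h.pos.le hz (h.int_g2.mono_set (ann_sub_Pt le_rfl))).2.2]
    with s hs hm
  unfold CI
  rw [norm_smul, Real.norm_of_nonneg hm.1.le, smul_eq_mul]
  refine mul_le_mul_of_nonneg_left ?_ hm.1.le
  exact intervalIntegral.norm_integral_le_of_norm_le Real.two_pi_pos.le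
    (Eventually.of_forall fun φ _ => norm_fl u x _) (hs hm)

theorem Tip.pt (h : Tip Ω ε wk u K x ρ z z') : ∀ᵐ s, s ∈ Ioo 0 (ρ / 2) →
    8 * (D u K x s / s) - 7 * CI x z (g2 u) s - 6000 * (ε * √s) ≤
      (conj (nu x (z s)) * CI x z (fl u x) s).re := by
  obtain ⟨c₀, hc⟩ := h.hold
  have hρ := h.pos
  have hz : ∀ s ∈ Ioo 0 ρ, ‖z s - x‖ = s := fun s hs => h.norm s ⟨hs.1, hs.2.le⟩
  filter_upwards [(polarT le_rfl h.pos.le hz (h.int_g2.mono_set (ann_sub_Pt le_rfl))).2.2,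
    (polarT le_rfl h.pos.le hz (h.int_fl.mono_set (ann_sub_Pt le_rfl))).2.2, h.out1 hc, h.out2]
    with s hg hf h1 h2 hm
  have hs : 0 < s := hm.1
  have hm' : s ∈ Ioo 0 ρ := ⟨hs, by linarith [hm.2]⟩
  have hm'' : s ∈ Ioc 0 ρ := ⟨hs, hm'.2.le⟩
  specialize hg hm'
  specialize hf hm'
  specialize h1 hm
  specialize h2 hm'
  have hne : ∀ φ, P x z s φ ≠ x := fun φ h0 => by
    have := (h.P_norm hm'' φ).1
    rw [h0, sub_self, norm_zero] at this
    exact hs.ne this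
  have hzx : z s ≠ x := fun h0 => by
    have := hz s hm'
    rw [h0, sub_self, norm_zero] at this
    exact hs.ne this
  have he : ‖nu x (z s)‖ = 1 := norm_nu hzx
  have hnu : ∀ φ : ℝ, nu x (P x z s φ) = nu x (z s) * Complex.exp (φ * Complex.I) :=
    fun φ => (h.P_norm hm'' φ).2.1
  have hcP : Continuous fun φ : ℝ => P x z s φ := by
    unfold P
    fun_prop
  have hcF : ContinuousOn (fun φ : ℝ => fderiv ℝ u (P x z s φ)) (Ioo 0 (2 * Real.pi)) :=
    (contOn h.am).comp hcP.continuousOn fun φ hφ => h.P_mem hm'' hφ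
  have hp : ContinuousOn (fun φ : ℝ => pp u x (P x z s φ)) (Ioo 0 (2 * Real.pi)) := by
    simp only [pp, hnu]
    exact hcF.clm_apply (Continuous.continuousOn (by fun_prop))
  have hq : ContinuousOn (fun φ : ℝ => qq u x (P x z s φ)) (Ioo 0 (2 * Real.pi)) := by
    simp only [qq, hnu]
    exact hcF.clm_apply (Continuous.continuousOn (by fun_prop))
  have hg2 : (fun φ => pp u x (P x z s φ) ^ 2 + qq u x (P x z s φ) ^ 2) =
      fun φ => g2 u (P x z s φ) := funext fun φ => (g2_eq (hne φ)).symm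
  have hM : ∀ φ ∈ Ioo 0 (2 * Real.pi), |u (P x z s φ) - c₀| ≤ 30 * √s := fun φ hφ => by
    have h3 := (h.P_norm hm'' φ).1
    have h4 := hc _ (h.P_mem hm'' hφ).2 (by rw [h3]; exact hm.2.le)
    rwa [h3] at h4
  have hcirc := circ (U := fun φ => u (P x z s φ) - c₀) hs
    (fun φ hφ => (h.hasDerivAt_circ hm'' hφ).sub_const c₀) hM hp hq (by rw [hg2]; exact hg)
  rw [hg2] at hcirc
  let L : ℂ →L[ℝ] ℝ := Complex.reCLM.comp (ContinuousLinearMap.mul ℝ ℂ (conj (nu x (z s))))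
  have hL : ∀ w, L w = (conj (nu x (z s)) * w).re := fun w => rfl
  have hfL : IntervalIntegrable (fun φ => L (fl u x (P x z s φ))) volume 0 (2 * Real.pi) :=
    ⟨L.integrable_comp hf.1, L.integrable_comp hf.2⟩
  have hpt : (fun φ => (pp u x (P x z s φ) * Real.cos (φ / 2) +
      qq u x (P x z s φ) * Real.sin (φ / 2)) ^ 2) =
      fun φ => (g2 u (P x z s φ) - L (fl u x (P x z s φ))) / 2 := funext fun φ => by
    rw [hL, fl, gr_eq (hne φ), hnu, alg_Pt _ _ _ he, g2_eq (hne φ)]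
    ring
  rw [hpt, intervalIntegral.integral_div, intervalIntegral.integral_sub hg hfL,
    L.intervalIntegral_comp_comm hf] at hcirc
  have hsm : ε * √s ≤ 1 :=
    h.am.small x s hs ((closedBall_subset_closedBall hm''.2).trans h.sub)
  have key := num_Pt hs (Real.sqrt_nonneg s) (Real.mul_self_sqrt hs.le) h.am.eps hsm hcirc h1 h2
  rw [← hL]
  unfold CI
  rw [L.map_smul, smul_eq_mul, smul_eq_mul]
  linarith

end

end Vale.Agent.P128.T
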