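import Vale.Agent.P128.T.Comp
import Vale.Agent.P128.T.DirC
import Vale.Agent.P128.T.LenC
import Vale.Agent.P128.T.Pt

/-! P128 T/Inner (TASK, about 200 lines): the inner variation.
`inner_t`: `AM0.min` with `comp`; `dir_eq`, `len_low`, `dir_comp`, `len_comp`; `μH[1] (K ∩ closedBall x a)` is finite (`AM0.upper_real`), cancel it and pass to reals. `norm_sub_le` under the integral (`radial`).
`polarT` for `conj (W ‖y - x‖) * fl u x y`: `CI` of it at `s` is `conj (W s) * CI x z (fl u x) s` (`P_norm`, `intervalIntegral.integral_const_mul`); real part and integral commute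
(`ContinuousLinearMap.intervalIntegral_comp_comm Complex.reCLM`). `D ≤ 8 b`. `inner_one`: apply `inner_t` to `t • W`, `t = k / 2`, `k = √√(b/ρ)`, `Tip.eps`, divide by `t`.
Helper names end with `_Inner`. -/

namespace Vale.Agent.P128.T

open MeasureTheory Set Metric Filter Topology
open scoped ENNReal ComplexConjugate

noncomputable section

variable {Ω K : Set ℂ} {ε ρ a b t c₀ : ℝ} {wk : Prop} {u : ℂ → ℝ} {x : ℂ} {z z' W : ℝ → ℂ}

lemma re_ii_Inner {f : ℝ → ℂ} (hf : IntervalIntegrable f volume a b) :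
    IntervalIntegrable (fun s => (f s).re) volume a b :=
  ⟨Complex.reCLM.integrable_comp hf.1, Complex.reCLM.integrable_comp hf.2⟩

lemma sub_Inner (ha : 0 < a) (hb : b ≤ ρ) : Icc a b ⊆ Ioc 0 ρ :=
  fun _ hs => ⟨ha.trans_le hs.1, hs.2.trans hb⟩

lemma ann_sub_Inner (hb : b ≤ ρ) : ann x a b ⊆ closedBall x ρ := fun _ hy => by
  rw [mem_closedBall, dist_eq_norm]
  exact hy.2.le.trans hb

lemma ii_C_Inner (h : Tip Ω ε wk u K x ρ z z') (ha : 0 < a) (hab : a ≤ b) (hb : b ≤ ρ)
    (hW : ContinuousOn W (Icc a b)) :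
    IntervalIntegrable (fun s => conj (W s) * CI x z (fl u x) s) volume a b := by
  have h1 := (polarT (x := x) (z := z) (f := fl u x) ha.le hab
    (fun s hs => h.norm s (sub_Inner ha hb (Ioo_subset_Icc_self hs)))
    (h.int_fl.mono_set (ann_sub_Inner hb))).1
  refine h1.continuousOn_mul ?_
  rw [uIcc_of_le hab]
  exact Complex.continuous_conj.comp_continuousOn hW

lemma cont_A_Inner (h : Tip Ω ε wk u K x ρ z z') (ha : 0 < a) (hb : b ≤ ρ)
    (hW : ContinuousOn W (Icc a b)) :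
    ContinuousOn (fun s => (conj (W s) * (z' s / (‖z' s‖ : ℝ))).re) (Icc a b) := by
  have hz : ContinuousOn z' (Icc a b) := h.cont.mono (sub_Inner ha hb)
  refine Complex.continuous_re.comp_continuousOn
    ((Complex.continuous_conj.comp_continuousOn hW).mul
      (hz.div (Complex.continuous_ofReal.comp_continuousOn hz.norm) fun s hs => ?_))
  have h1 := (h.radial (sub_Inner ha hb hs)).2
  exact Complex.ofReal_ne_zero.mpr (by linarith)

lemma polar_Inner (h : Tip Ω ε wk u K x ρ z z') (hF : Fld W a b t) (hb : b ≤ ρ) :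
    (∫ y in ann x a b, conj (W ‖y - x‖) * fl u x y).re =
      ∫ s in a..b, (conj (W s) * CI x z (fl u x) s).re := by
  have h1 := (polarT (x := x) (z := z) (f := fun y => conj (W ‖y - x‖) * fl u x y) hF.pos.le hF.le
    (fun s hs => h.norm s (sub_Inner hF.pos hb (Ioo_subset_Icc_self hs))) (h.int_W hF hb)).2.1
  have h2 : ∫ s in a..b, CI x z (fun y => conj (W ‖y - x‖) * fl u x y) s =
      ∫ s in a..b, conj (W s) * CI x z (fl u x) s := by
    refine intervalIntegral.integral_congr fun s hs => ?_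
    rw [uIcc_of_le hF.le] at hs
    have hs' := sub_Inner hF.pos hb hs
    have e : ∀ φ : ℝ, conj (W ‖P x z s φ - x‖) * fl u x (P x z s φ) =
        conj (W s) * fl u x (P x z s φ) := fun φ => by rw [(h.P_norm hs' φ).1]
    simp only [CI, e]
    rw [intervalIntegral.integral_const_mul, mul_smul_comm]
  rw [← h1, h2]
  exact (Complex.reCLM.intervalIntegral_comp_comm (ii_C_Inner h hF.pos hF.le hb hF.cont)).symm

lemma len_Inner (h : Tip Ω ε wk u K x ρ z z') (hF : Fld W a b t) (hb : b ≤ ρ) :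
    ∫ s in a..b, ‖z' s - W s‖ ≤ (∫ s in a..b, ‖z' s‖) -
      (∫ s in a..b, (conj (W s) * (z' s / (‖z' s‖ : ℝ))).re) + t ^ 2 * (b - a) := by
  have hz : ContinuousOn z' (Icc a b) := h.cont.mono (sub_Inner hF.pos hb)
  have i1 : IntervalIntegrable (fun s => ‖z' s - W s‖) volume a b :=
    ContinuousOn.intervalIntegrable_of_Icc hF.le (hz.sub hF.cont).norm
  have i2 : IntervalIntegrable (fun s => ‖z' s‖) volume a b :=
    ContinuousOn.intervalIntegrable_of_Icc hF.le hz.norm
  have i3 : IntervalIntegrable (fun s => (conj (W s) * (z' s / (‖z' s‖ : ℝ))).re) volume a b :=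
    ContinuousOn.intervalIntegrable_of_Icc hF.le (cont_A_Inner h hF.pos hb hF.cont)
  have h1 := intervalIntegral.integral_mono_on hF.le i1
    ((i2.sub i3).add (intervalIntegrable_const (c := t ^ 2)))
    (fun s hs => norm_sub_le (h.radial (sub_Inner hF.pos hb hs)).2 (hF.bd s hs) hF.half)
  rw [intervalIntegral.integral_add (i2.sub i3) intervalIntegrable_const,
    intervalIntegral.integral_sub i2 i3, intervalIntegral.integral_const, smul_eq_mul] at h1
  linarith

lemma en_Inner {D l I1 I2 E e : ℝ} {A B C F : ℝ≥0∞} (hD : 0 ≤ D) (hl : 0 ≤ l) (h1 : 0 ≤ I1)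
    (h2 : 0 ≤ I2) (hE : 0 ≤ E) (he : 0 ≤ e) (hA : A = ENNReal.ofReal D)
    (hB : ENNReal.ofReal l + ENNReal.ofReal I1 ≤ B) (hC : C ≤ ENNReal.ofReal E)
    (hF : F ≤ ENNReal.ofReal l + ENNReal.ofReal I2) (h : A + B ≤ C + F + ENNReal.ofReal e) :
    D + I1 ≤ E + I2 + e := by
  have h3 : ENNReal.ofReal (D + (l + I1)) ≤ ENNReal.ofReal (E + (l + I2) + e) := by
    rw [ENNReal.ofReal_add hD (add_nonneg hl h1), ENNReal.ofReal_add hl h1,
      ENNReal.ofReal_add (add_nonneg hE (add_nonneg hl h2)) he,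
      ENNReal.ofReal_add hE (add_nonneg hl h2), ENNReal.ofReal_add hl h2, ← hA]
    exact (add_le_add le_rfl hB).trans (h.trans (add_le_add (add_le_add hC hF) le_rfl))
  rw [ENNReal.ofReal_le_ofReal_iff (add_nonneg (add_nonneg hE (add_nonneg hl h2)) he)] at h3
  linarith

theorem Tip.ii_W (h : Tip Ω ε wk u K x ρ z z') (ha : 0 < a) (hab : a ≤ b) (hb : b ≤ ρ)
    (hW : ContinuousOn W (Icc a b)) :
    IntervalIntegrable (fun s => (conj (W s) * (z' s / (‖z' s‖ : ℝ))).re) volume a b ∧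
      IntervalIntegrable (fun s => (conj (W s) * CI x z (fl u x) s).re) volume a b :=
  ⟨ContinuousOn.intervalIntegrable_of_Icc hab (cont_A_Inner h ha hb hW),
    re_ii_Inner (ii_C_Inner h ha hab hb hW)⟩

theorem Tip.inner_t (h : Tip Ω ε wk u K x ρ z z') (hF : Fld W a b t) (hb : b ≤ ρ) :
    (∫ s in a..b, (conj (W s) * (z' s / (‖z' s‖ : ℝ))).re) -
      ∫ s in a..b, (conj (W s) * CI x z (fl u x) s).re ≤ 17 * t ^ 2 * b + ε * b * √b := by
  obtain ⟨Φ, hΦ, hl⟩ := hF.exists_homeo x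
  have ha := hF.pos
  have hab := hF.le
  have hb0 : 0 < b := ha.trans_le hab
  have hsb : closedBall x b ⊆ Ω := (closedBall_subset_closedBall hb).trans h.sub
  have hsa : closedBall x a ⊆ Ω := (closedBall_subset_closedBall hab).trans hsb
  have hm := h.am.min x b _ _ hb0 hsb (comp h.am hF hsb hΦ hl)
  obtain ⟨E, hE0, hE1, hE2⟩ := h.dir_comp hF hb hΦ
  obtain ⟨-, -, u3, -, -, -, u7, u8, -⟩ := h.am.upper_real ha hsa
  have l1 := h.len_low ha hab hb
  have l2 := h.len_comp hF hb hΦ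
  rw [u3] at l1 l2
  obtain ⟨d0, d1⟩ := h.D_le (r := b) ⟨hb0, hb⟩
  have he : 0 ≤ ε * b * √b := mul_nonneg (mul_nonneg h.am.eps hb0.le) (Real.sqrt_nonneg _)
  have key := en_Inner d0 (u7.trans u8)
    (intervalIntegral.integral_nonneg hab fun s _ => norm_nonneg (z' s))
    (intervalIntegral.integral_nonneg hab fun s _ => norm_nonneg (z' s - W s)) hE0 he
    (h.dir_eq hb).1 l1 hE1 l2 hm
  rw [polar_Inner h hF hb] at hE2
  have l3 := len_Inner h hF hb
  have t2 : 0 ≤ t ^ 2 := by positivity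
  have e1 : t ^ 2 * D u K x b ≤ t ^ 2 * (8 * b) := mul_le_mul_of_nonneg_left d1 t2
  have e2 : t ^ 2 * (b - a) ≤ t ^ 2 * b := mul_le_mul_of_nonneg_left (by linarith) t2
  linarith

theorem Tip.inner_one (h : Tip Ω ε wk u K x ρ z z') (ha : 0 < a) (hab : a ≤ b) (hb : b ≤ ρ)
    (hW : ContinuousOn W (Icc a b)) (h1 : ∀ s ∈ Icc a b, ‖W s‖ ≤ 1) :
    (∫ s in a..b, (conj (W s) * (z' s / (‖z' s‖ : ℝ))).re) -
      ∫ s in a..b, (conj (W s) * CI x z (fl u x) s).re ≤ 11 * b * √(√(b / ρ)) := by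
  have hb0 : 0 < b := ha.trans_le hab
  obtain ⟨e1, e2⟩ := h.eps hb0.le hb
  have hk : 0 < √(√(b / ρ)) := Real.sqrt_pos.mpr (Real.sqrt_pos.mpr (div_pos hb0 h.pos))
  generalize √(√(b / ρ)) = k at e1 e2 hk ⊢
  have hF : Fld (fun s => ((k / 2 : ℝ) : ℂ) * W s) a b (k / 2) := by
    refine ⟨ha, hab, continuousOn_const.mul hW, fun s hs => ?_, by linarith⟩
    rw [norm_mul, Complex.norm_real, Real.norm_eq_abs, abs_of_pos (by linarith)]
    exact mul_le_of_le_one_right (by linarith) (h1 s hs)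
  have h2 := h.inner_t hF hb
  have e : ∀ w v : ℂ, (conj (((k / 2 : ℝ) : ℂ) * w) * v).re = k / 2 * (conj w * v).re := by
    intro w v
    rw [map_mul, Complex.conj_ofReal, mul_assoc, Complex.re_ofReal_mul]
  simp only [e] at h2
  rw [intervalIntegral.integral_const_mul, intervalIntegral.integral_const_mul, ← mul_sub] at h2
  have e3 : ε * b * √b ≤ b * k ^ 2 := by
    have := mul_le_mul_of_nonneg_left e1 hb0.le
    linarith
  have e4 : 0 ≤ b * k ^ 2 := by positivity
  refine le_of_mul_le_mul_left ?_ (by linarith : 0 < k / 2)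
  refine h2.trans ?_
  nlinarith

end

end Vale.Agent.P128.T
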