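import Vale.Agent.P128.T.Defs

/-! P128 T/Jac (TASK, about 150 lines): the Jacobi substitution.
With `c = cot (φ/2)`: `h'^2 - h^2/4 - (h' - c h / 2)^2 = (1/2) (h^2 c)'`, and `(h' sin - h cos / 2)^2 ≤ (h' - c h / 2)^2`. Either integrate over `[δ, 2π - δ]` and let `δ → 0`
(`h δ ^ 2 ≤ δ ∫_0^δ h'^2`, `cot (δ/2) ≤ 2/δ`), or (simpler) replace `φ/2` by `k (φ + η)` and `1/2` by `k = π / (2π + 2η)`: then `c` is smooth on `[0, 2π]`, the boundary terms vanish
(`intervalIntegral.integral_eq_sub_of_hasDerivAt_of_le` or `..._of_hasDeriv_right`), and let `η → 0` (expand the square, or dominated convergence). Helper names end with `_Jac`. -/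

namespace Vale.Agent.P128.T

open MeasureTheory Set Metric Filter Topology
open scoped ENNReal ComplexConjugate

noncomputable section

variable {Ω K : Set ℂ} {ε ρ a b t c₀ : ℝ} {wk : Prop} {u : ℂ → ℝ} {x : ℂ} {z z' W : ℝ → ℂ}

/-- The integrand at the parameter `k`. -/
def F_Jac (h h' : ℝ → ℝ) (k φ : ℝ) : ℝ :=
  h' φ ^ 2 - k ^ 2 * h φ ^ 2 - (h' φ * Real.sin (Real.pi / 2 + k * (φ - Real.pi)) -
    k * h φ * Real.cos (Real.pi / 2 + k * (φ - Real.pi))) ^ 2

theorem sq_Jac {h' A B : ℝ → ℝ} {a b : ℝ} (hi : IntervalIntegrable h' volume a b)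
    (hi2 : IntervalIntegrable (fun φ => h' φ ^ 2) volume a b) (hA : ContinuousOn A (uIcc a b))
    (hB : ContinuousOn B (uIcc a b)) :
    IntervalIntegrable (fun φ => (h' φ * A φ - B φ) ^ 2) volume a b := by
  have e : (fun φ => (h' φ * A φ - B φ) ^ 2) =
      fun φ => h' φ ^ 2 * A φ ^ 2 - h' φ * (2 * A φ * B φ) + B φ ^ 2 := by
    funext φ
    ring
  rw [e]
  exact ((hi2.mul_continuousOn (hA.pow 2)).sub
    (hi.mul_continuousOn ((continuousOn_const.mul hA).mul hB))).add (hB.pow 2).intervalIntegrable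

theorem int_Jac {h h' : ℝ → ℝ} {a b : ℝ} (hc : ContinuousOn h (uIcc a b))
    (hi : IntervalIntegrable h' volume a b)
    (hi2 : IntervalIntegrable (fun φ => h' φ ^ 2) volume a b) (k : ℝ) :
    IntervalIntegrable (F_Jac h h' k) volume a b :=
  (hi2.sub (continuousOn_const.mul (hc.pow 2)).intervalIntegrable).sub
    (sq_Jac hi hi2 (by fun_prop) ((continuousOn_const.mul hc).mul (by fun_prop)))

theorem step_Jac {h h' : ℝ → ℝ} (hc : ContinuousOn h (Icc 0 (2 * Real.pi)))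
    (hd : ∀ φ ∈ Ioo 0 (2 * Real.pi), HasDerivAt h (h' φ) φ) (h0 : h 0 = 0)
    (h1 : h (2 * Real.pi) = 0) (hi : IntervalIntegrable h' volume 0 (2 * Real.pi))
    (hi2 : IntervalIntegrable (fun φ => h' φ ^ 2) volume 0 (2 * Real.pi)) {k : ℝ} (hk0 : 0 < k)
    (hk : k < 1 / 2) : 0 ≤ ∫ φ in (0 : ℝ)..(2 * Real.pi), F_Jac h h' k φ := by
  have hpi := Real.pi_pos
  have hle : (0 : ℝ) ≤ 2 * Real.pi := by positivity
  have hu : uIcc (0 : ℝ) (2 * Real.pi) = Icc 0 (2 * Real.pi) := uIcc_of_le hle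
  set θ : ℝ → ℝ := fun φ => Real.pi / 2 + k * (φ - Real.pi) with hθ
  have hs : ∀ φ ∈ Icc (0 : ℝ) (2 * Real.pi), 0 < Real.sin (θ φ) := fun φ hφ =>
    Real.sin_pos_of_pos_of_lt_pi (by simp only [hθ]; nlinarith [hφ.1, hφ.2])
      (by simp only [hθ]; nlinarith [hφ.1, hφ.2])
  set c : ℝ → ℝ := fun φ => k * Real.cos (θ φ) / Real.sin (θ φ) with hcd
  have hθd : ∀ φ, HasDerivAt θ k φ := fun φ =>
    ((((hasDerivAt_id φ).sub_const Real.pi).const_mul k).const_add (Real.pi / 2)).congr_deriv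
      (mul_one k)
  have hcD : ∀ φ ∈ Icc (0 : ℝ) (2 * Real.pi), HasDerivAt c (-k ^ 2 - c φ ^ 2) φ := by
    intro φ hφ
    have hp := (hs φ hφ).ne'
    have h2 := (((hθd φ).cos).const_mul k).div (hθd φ).sin hp
    refine h2.congr_deriv ?_
    simp only [hcd]
    field_simp
  have hcc : ContinuousOn c (Icc 0 (2 * Real.pi)) := fun φ hφ =>
    (hcD φ hφ).continuousAt.continuousWithinAt
  have hI : IntervalIntegrable (fun φ => h' φ * (2 * h φ * c φ) + h φ ^ 2 * (-k ^ 2 - c φ ^ 2))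
      volume 0 (2 * Real.pi) := by
    refine (hi.mul_continuousOn ?_).add (ContinuousOn.intervalIntegrable ?_)
    · rw [hu]
      exact (continuousOn_const.mul hc).mul hcc
    · rw [hu]
      exact (hc.pow 2).mul (continuousOn_const.sub (hcc.pow 2))
  have hF := intervalIntegral.integral_eq_sub_of_hasDerivAt_of_le (f := fun φ => h φ ^ 2 * c φ) hle
    ((hc.pow 2).mul hcc) (fun φ hφ => by
      have h2 := ((hd φ hφ).pow 2).mul (hcD φ (Ioo_subset_Icc_self hφ))
      refine h2.congr_deriv ?_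
      simp only [Pi.pow_apply]
      norm_num
      ring) hI
  rw [h0, h1] at hF
  have hz : (0 : ℝ) ^ 2 * c (2 * Real.pi) - 0 ^ 2 * c 0 = 0 := by ring
  rw [hz] at hF
  refine hF.ge.trans
    (intervalIntegral.integral_mono_on hle hI (int_Jac (hu ▸ hc) hi hi2 k) fun φ hφ => ?_)
  have hp := (hs φ hφ).ne'
  have e1 : k * Real.cos (θ φ) = c φ * Real.sin (θ φ) := by
    simp only [hcd]
    field_simp
  have e2 : h' φ * Real.sin (θ φ) - k * h φ * Real.cos (θ φ) =
      Real.sin (θ φ) * (h' φ - c φ * h φ) := by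
    linear_combination (-h φ) * e1
  have e3 : F_Jac h h' k φ = h' φ ^ 2 - k ^ 2 * h φ ^ 2 -
      (Real.sin (θ φ) * (h' φ - c φ * h φ)) ^ 2 := by
    rw [← e2]
    rfl
  rw [e3]
  have e4 := mul_le_mul_of_nonneg_right (Real.sin_sq_le_one (θ φ)) (sq_nonneg (h' φ - c φ * h φ))
  nlinarith

theorem jacobi {h h' : ℝ → ℝ} (hc : ContinuousOn h (Icc 0 (2 * Real.pi)))
    (hd : ∀ φ ∈ Ioo 0 (2 * Real.pi), HasDerivAt h (h' φ) φ) (h0 : h 0 = 0)
    (h1 : h (2 * Real.pi) = 0) (hi : IntervalIntegrable h' volume 0 (2 * Real.pi))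
    (hi2 : IntervalIntegrable (fun φ => h' φ ^ 2) volume 0 (2 * Real.pi)) :
    ∫ φ in (0 : ℝ)..(2 * Real.pi), (h' φ * Real.sin (φ / 2) - h φ * Real.cos (φ / 2) / 2) ^ 2 ≤
      ∫ φ in (0 : ℝ)..(2 * Real.pi), (h' φ ^ 2 - h φ ^ 2 / 4) := by
  have hpi := Real.pi_pos
  have hle : (0 : ℝ) ≤ 2 * Real.pi := by positivity
  have hu : uIcc (0 : ℝ) (2 * Real.pi) = Icc 0 (2 * Real.pi) := uIcc_of_le hle
  have hc' : ContinuousOn h (uIcc 0 (2 * Real.pi)) := hu ▸ hc
  have hcont : ContinuousWithinAt (fun k => ∫ φ in (0 : ℝ)..(2 * Real.pi), F_Jac h h' k φ)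
      (Ioo 0 (1 / 2)) (1 / 2) := by
    refine intervalIntegral.continuousWithinAt_of_dominated_interval
      (bound := fun φ => 3 * h' φ ^ 2 + 3 * h φ ^ 2)
      (Eventually.of_forall fun k => (int_Jac hc' hi hi2 k).aestronglyMeasurable_restrict_uIoc)
      ?_ ((hi2.const_mul 3).add (continuousOn_const.mul (hc'.pow 2)).intervalIntegrable)
      (Eventually.of_forall fun φ _ => ?_)
    · filter_upwards [self_mem_nhdsWithin] with k hk
      refine Eventually.of_forall fun φ _ => ?_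
      have s1 := Real.sin_sq_le_one (Real.pi / 2 + k * (φ - Real.pi))
      have c1 := Real.cos_sq_le_one (Real.pi / 2 + k * (φ - Real.pi))
      have k1 : k ^ 2 ≤ 1 := by nlinarith [hk.1, hk.2]
      rw [Real.norm_eq_abs, F_Jac]
      generalize Real.sin (Real.pi / 2 + k * (φ - Real.pi)) = s at s1 ⊢
      generalize Real.cos (Real.pi / 2 + k * (φ - Real.pi)) = c at c1 ⊢
      have a1 := mul_le_mul_of_nonneg_left s1 (sq_nonneg (h' φ))
      have a2 := mul_le_mul_of_nonneg_right k1 (sq_nonneg (h φ))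
      have a3 := mul_le_mul_of_nonneg_left c1 (mul_nonneg (sq_nonneg k) (sq_nonneg (h φ)))
      have a4 := sq_nonneg (h' φ * s + k * h φ * c)
      have a5 := sq_nonneg (h' φ * s - k * h φ * c)
      have a6 := sq_nonneg (h' φ)
      have a7 := sq_nonneg (h φ)
      have a8 := mul_nonneg (sq_nonneg k) a7
      rw [abs_le]
      constructor <;> nlinarith
    · refine Continuous.continuousWithinAt ?_
      unfold F_Jac
      fun_prop
  have hne : (𝓝[Ioo (0 : ℝ) (1 / 2)] (1 / 2)).NeBot :=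
    right_nhdsWithin_Ioo_neBot (by norm_num)
  have hlim : 0 ≤ ∫ φ in (0 : ℝ)..(2 * Real.pi), F_Jac h h' (1 / 2) φ := by
    refine ge_of_tendsto hcont ?_
    filter_upwards [self_mem_nhdsWithin] with k hk
    exact step_Jac hc hd h0 h1 hi hi2 hk.1 hk.2
  have e : F_Jac h h' (1 / 2) = fun φ => (h' φ ^ 2 - h φ ^ 2 / 4) -
      (h' φ * Real.sin (φ / 2) - h φ * Real.cos (φ / 2) / 2) ^ 2 := by
    funext φ
    rw [F_Jac, show Real.pi / 2 + 1 / 2 * (φ - Real.pi) = φ / 2 by ring]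
    ring
  have i1 : IntervalIntegrable (fun φ => h' φ ^ 2 - h φ ^ 2 / 4) volume 0 (2 * Real.pi) :=
    hi2.sub ((hc'.pow 2).div_const 4).intervalIntegrable
  have i2 : IntervalIntegrable (fun φ => (h' φ * Real.sin (φ / 2) -
      h φ * Real.cos (φ / 2) / 2) ^ 2) volume 0 (2 * Real.pi) :=
    sq_Jac hi hi2 (by fun_prop) ((hc'.mul (by fun_prop)).div_const 2)
  rw [e, intervalIntegral.integral_sub i1 i2] at hlim
  exact sub_nonneg.1 hlim

end

end Vale.Agent.P128.T
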