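import Vale.Agent.P128.T.Basic

/-! P128 T/OutA (TASK, about 300 lines): the outer variation with a radial cut-off.
Test `AM0.outer` with `ψ = indicator Kᶜ (fun y => v y * chi a b ‖y - x‖)`, `C = closedBall x b`. On the open set `Ω \ K` it equals `v * chi`; `chi a b ‖· - x‖` is 1-Lipschitz, `0 ≤ chi ≤ b - a`.
For `y ∈ Ω \ K` off the circles of radius `a`, `b` (null): `fderiv ψ y = chi • fderiv v y - 1_{ann} v y • innerSL ℝ (nu x y)`, and `0` outside `closedBall x b`;
`inner (nu x y) (gr u y) = qq u x y` (`fderiv_eq`). So `‖fderiv ψ y‖ ≤ (b - a) ‖fderiv v y‖ + M 1_{ann}` on the ball. `a₀ b ≤ ε`, `volume_ann`, `Complex.volume_closedBall`, `Tip.null`.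
Products of two `L²` functions: `|fg| ≤ (f² + g²)/2`. Helper names end with `_OutA`. -/

namespace Vale.Agent.P128.T

open MeasureTheory Set Metric Filter Topology
open scoped ENNReal ComplexConjugate

noncomputable section

variable {Ω K : Set ℂ} {ε ρ a b t c₀ : ℝ} {wk : Prop} {u : ℂ → ℝ} {x : ℂ} {z z' W : ℝ → ℂ}

theorem chi_OutA (hab : a ≤ b) (s : ℝ) : 0 ≤ chi a b s ∧ chi a b s ≤ b - a ∧
    (b ≤ s → chi a b s = 0) ∧ (s ≤ a → chi a b s = b - a) ∧
    (a ≤ s → s ≤ b → chi a b s = b - s) := by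
  unfold chi
  refine ⟨sub_nonneg.2 (max_le hab (min_le_right _ _)), sub_le_sub_left (le_max_left _ _) _,
    fun h => ?_, fun h => ?_, fun h h' => ?_⟩
  · rw [min_eq_right h, max_eq_right hab, sub_self]
  · rw [max_eq_left ((min_le_left _ _).trans h)]
  · rw [min_eq_left h', max_eq_right h]

theorem chi_lip_OutA (a b : ℝ) (x p q : ℂ) :
    |chi a b ‖p - x‖ - chi a b ‖q - x‖| ≤ dist p q := by
  have h1 : |‖q - x‖ - ‖p - x‖| ≤ dist p q := by
    refine (abs_norm_sub_norm_le _ _).trans (le_of_eq ?_)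
    rw [sub_sub_sub_cancel_right, dist_comm, dist_eq_norm]
  have h2 := abs_max_sub_max_le_max a (min ‖q - x‖ b) a (min ‖p - x‖ b)
  have h3 := abs_min_sub_min_le_max ‖q - x‖ b ‖p - x‖ b
  rw [sub_self, abs_zero] at h2 h3
  unfold chi
  rw [sub_sub_sub_cancel_left]
  exact h2.trans (max_le dist_nonneg (h3.trans (max_le h1 dist_nonneg)))

theorem chi_cont_OutA (a b : ℝ) (x : ℂ) : Continuous fun y : ℂ => chi a b ‖y - x‖ := by
  unfold chi
  fun_prop

theorem norm_der_OutA {y : ℂ} (h : y ≠ x) :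
    HasFDerivAt (fun y : ℂ => ‖y - x‖) (innerSL ℝ (nu x y)) y := by
  have h0 : ‖y - x‖ ≠ 0 := norm_ne_zero_iff.2 (sub_ne_zero.2 h)
  have h1 := (((hasFDerivAt_id (𝕜 := ℝ) y).sub_const x).norm_sq).sqrt (pow_ne_zero 2 h0)
  simp only [id, Real.sqrt_sq (norm_nonneg _)] at h1
  refine h1.congr_fderiv ?_
  have e : nu x y = (‖y - x‖⁻¹ : ℝ) • (y - x) := by
    rw [nu, Complex.real_smul, div_eq_inv_mul, Complex.ofReal_inv]
  refine ContinuousLinearMap.ext fun w => ?_
  rw [e, map_smul]
  simp only [_root_.smul_apply, ContinuousLinearMap.comp_id, smul_eq_mul, nsmul_eq_mul]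
  push_cast
  field_simp

theorem chi_der_OutA (ha : 0 < a) (hab : a < b) {y : ℂ} (h1 : ‖y - x‖ ≠ a) (h2 : ‖y - x‖ ≠ b) :
    HasFDerivAt (fun y : ℂ => chi a b ‖y - x‖)
      (-(ann x a b).indicator (fun y => innerSL ℝ (nu x y)) y) y := by
  have hc : Continuous fun y : ℂ => ‖y - x‖ := by fun_prop
  rcases h1.lt_or_gt with h1 | h1
  · rw [indicator_of_notMem fun h => absurd h.1 h1.le.not_gt, neg_zero]
    refine (hasFDerivAt_const (b - a) y).congr_of_eventuallyEq ?_
    filter_upwards [hc.continuousAt.eventually_lt_const h1] with w hw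
    exact (chi_OutA hab.le _).2.2.2.1 hw.le
  rcases h2.lt_or_gt with h2 | h2
  · rw [indicator_of_mem (show y ∈ ann x a b from ⟨h1, h2⟩)]
    have hy : y ≠ x := fun e => by
      rw [e, sub_self, norm_zero] at h1
      exact absurd h1 ha.le.not_gt
    refine ((norm_der_OutA hy).const_sub b).congr_of_eventuallyEq ?_
    filter_upwards [hc.continuousAt.eventually_lt_const h2, hc.continuousAt.eventually_const_lt h1]
      with w hw hw'
    exact (chi_OutA hab.le _).2.2.2.2 hw'.le hw.le
  · rw [indicator_of_notMem fun h => absurd h.2 h2.le.not_gt, neg_zero]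
    refine (hasFDerivAt_const (0 : ℝ) y).congr_of_eventuallyEq ?_
    filter_upwards [hc.continuousAt.eventually_const_lt h2] with w hw
    exact (chi_OutA hab.le _).2.2.1 hw.le

theorem lip_OutA {U : Set ℂ} {v : ℂ → ℝ} (hU : ∀ y ∈ U, y ∉ K) (hab : a ≤ b)
    (hl : LocallyLipschitzOn U v) :
    LocallyLipschitzOn U (Kᶜ.indicator fun y => v y * chi a b ‖y - x‖) := by
  intro y hy
  obtain ⟨L, S, hS, hL⟩ := hl hy
  have hyS : y ∈ S := mem_of_mem_nhdsWithin hy hS
  refine ⟨Real.toNNReal (L * (b - a) + (|v y| + L)), S ∩ U ∩ ball y 1,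
    inter_mem (inter_mem hS self_mem_nhdsWithin) (mem_nhdsWithin_of_mem_nhds (ball_mem_nhds y one_pos)),
    LipschitzOnWith.of_dist_le' fun p hp q hq => ?_⟩
  rw [indicator_of_mem (show p ∈ Kᶜ from hU p hp.1.2), indicator_of_mem (show q ∈ Kᶜ from hU q hq.1.2),
    Real.dist_eq]
  have h1 : |v p - v q| ≤ L * dist p q := hL.dist_le_mul p hp.1.1 q hq.1.1
  have h2 : |v q - v y| ≤ L * dist q y := hL.dist_le_mul q hq.1.1 y hyS
  have h3 : (L : ℝ) * dist q y ≤ L := mul_le_of_le_one_right L.2 (mem_ball.1 hq.2).le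
  have h4 : |v q| ≤ |v y| + L := by
    have := abs_sub_abs_le_abs_sub (v q) (v y)
    linarith
  have h5 := chi_OutA hab ‖p - x‖
  calc |v p * chi a b ‖p - x‖ - v q * chi a b ‖q - x‖|
      = |(v p - v q) * chi a b ‖p - x‖ + v q * (chi a b ‖p - x‖ - chi a b ‖q - x‖)| := by ring_nf
    _ ≤ |v p - v q| * chi a b ‖p - x‖ + |v q| * |chi a b ‖p - x‖ - chi a b ‖q - x‖| := by
      refine (abs_add_le _ _).trans (le_of_eq ?_)
      rw [abs_mul, abs_mul, abs_of_nonneg h5.1]
    _ ≤ L * dist p q * (b - a) + (|v y| + L) * dist p q :=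
      add_le_add (mul_le_mul h1 h5.2.1 h5.1 (by positivity))
        (mul_le_mul h4 (chi_lip_OutA a b x p q) (abs_nonneg _) (by positivity))
    _ = _ := by ring

theorem ind_OutA (h : Tip Ω ε wk u K x ρ z z') {S : Set ℂ} (hS : MeasurableSet S)
    (hs : S ⊆ closedBall x ρ) (f : ℂ → ℝ) :
    ∫ y in Ω \ K, S.indicator f y = ∫ y in S, f y := by
  rw [setIntegral_indicator hS]
  refine setIntegral_congr_set ?_
  filter_upwards [measure_eq_zero_iff_ae_notMem.1 h.null] with y hy
  exact propext ⟨fun h1 => h1.2, fun h1 => ⟨⟨h.sub (hs h1), fun hK => hy ⟨hK, hs h1⟩⟩, h1⟩⟩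

theorem der_OutA (h : Tip Ω ε wk u K x ρ z z') {v : ℂ → ℝ} (ha : 0 < a) (hab : a < b)
    (hd : ∀ y ∈ Ω \ K, DifferentiableAt ℝ v y) : ∀ᵐ y ∂volume.restrict (Ω \ K), y ∉ K ∧
      fderiv ℝ (Kᶜ.indicator fun y => v y * chi a b ‖y - x‖) y =
        chi a b ‖y - x‖ • fderiv ℝ v y - (ann x a b).indicator (fun y => v y • innerSL ℝ (nu x y)) y := by
  have hm : MeasurableSet (Ω \ K) := h.am.isOpen.measurableSet.diff h.am.closed.measurableSet
  have h1 := measure_eq_zero_iff_ae_notMem.1 (Measure.addHaar_sphere (volume : Measure ℂ) x a)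
  have h2 := measure_eq_zero_iff_ae_notMem.1 (Measure.addHaar_sphere (volume : Measure ℂ) x b)
  filter_upwards [ae_restrict_mem hm, ae_restrict_of_ae h1, ae_restrict_of_ae h2] with y hy h1 h2
  refine ⟨hy.2, ?_⟩
  have h3 := (hd y hy).hasFDerivAt.mul (chi_der_OutA (x := x) ha hab
    (fun e => h1 (mem_sphere_iff_norm.2 e)) fun e => h2 (mem_sphere_iff_norm.2 e))
  have h4 : (Kᶜ.indicator fun y => v y * chi a b ‖y - x‖) =ᶠ[𝓝 y]
      v * fun y => chi a b ‖y - x‖ := by
    filter_upwards [h.am.closed.isOpen_compl.mem_nhds hy.2] with w hw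
    exact indicator_of_mem hw _
  rw [(h3.congr_of_eventuallyEq h4).fderiv]
  by_cases hA : y ∈ ann x a b
  · rw [indicator_of_mem hA, indicator_of_mem hA, smul_neg, neg_add_eq_sub]
  · rw [indicator_of_notMem hA, indicator_of_notMem hA, neg_zero, smul_zero, zero_add, sub_zero]

theorem Tip.outer (h : Tip Ω ε wk u K x ρ z z') {v : ℂ → ℝ} {M : ℝ} (ha : 0 < a) (hab : a < b)
    (hb : b ≤ ρ) (hd : ∀ y ∈ Ω \ K, DifferentiableAt ℝ v y) (hl : LocallyLipschitzOn (Ω \ K) v)
    (hM : ∀ y, y ∉ K → ‖y - x‖ ≤ b → |v y| ≤ M) (hi : IntegrableOn (g2 v) (closedBall x b)) :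
    |(∫ y in closedBall x b, chi a b ‖y - x‖ * fderiv ℝ v y (gr u y)) -
        ∫ y in ann x a b, v y * qq u x y| ≤
      (b - a) * ε * (10 * M * b + ∫ y in closedBall x b, ‖fderiv ℝ v y‖) := by
  have hb0 : 0 < b := ha.trans hab
  have hba : 0 ≤ b - a := sub_nonneg.2 hab.le
  have hε := h.am.eps
  have hm : MeasurableSet (Ω \ K) := h.am.isOpen.measurableSet.diff h.am.closed.measurableSet
  have hBρ : closedBall x b ⊆ closedBall x ρ := closedBall_subset_closedBall hb
  have hAB : ann x a b ⊆ closedBall x b := fun y hy => mem_closedBall_iff_norm.2 hy.2.le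
  have hB : MeasurableSet (closedBall x b) := measurableSet_closedBall
  have hA := measurableSet_ann x a b
  have hfin : volume (closedBall x b) ≠ ⊤ := measure_closedBall_lt_top.ne
  have hM0 : 0 ≤ M := (abs_nonneg _).trans (hM (P x z b Real.pi)
    (h.P_mem ⟨hb0, hb⟩ ⟨Real.pi_pos, by linarith [Real.pi_pos]⟩).2 (h.P_norm ⟨hb0, hb⟩ _).1.le)
  have hout : ∀ y, y ∉ closedBall x b → chi a b ‖y - x‖ = 0 := fun y hy =>
    (chi_OutA hab.le _).2.2.1 (not_le.1 fun e => hy (mem_closedBall_iff_norm.2 e)).le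
  have hind : ∀ {S : Set ℂ} {f : ℂ → ℝ}, MeasurableSet S → IntegrableOn f S →
      Integrable (S.indicator f) (volume.restrict (Ω \ K)) := fun hS hf =>
    ((integrable_indicator_iff hS).2 hf).restrict
  have hcB : ∀ c : ℝ, IntegrableOn (fun _ => c) (closedBall x b) := fun c => integrableOn_const hfin
  have hu2 : IntegrableOn (g2 u) (closedBall x b) := h.int_g2.mono_set hBρ
  have hv1 : IntegrableOn (fun y => ‖fderiv ℝ v y‖) (closedBall x b) := by
    refine ((hcB 1).add hi).mono' (measurable_fderiv ℝ v).norm.aestronglyMeasurable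
      (Eventually.of_forall fun y => ?_)
    rw [norm_norm, Pi.add_apply, g2]
    nlinarith [sq_nonneg (‖fderiv ℝ v y‖ - 1)]
  obtain ⟨a₀, ha₀, h1, h2⟩ := h.am.outer
  have ha₁ : a₀ * b ≤ ε := (h1 x b hb0 (hBρ.trans h.sub)).1
  set ψ : ℂ → ℝ := Kᶜ.indicator fun y => v y * chi a b ‖y - x‖ with hψ
  have hder := der_OutA h ha hab hd
  rw [← hψ] at hder
  have hψb : ∀ y, |ψ y| ≤ (closedBall x b).indicator (fun _ => M * (b - a)) y := by
    intro y
    by_cases hy : y ∈ closedBall x b
    · rw [indicator_of_mem hy]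
      by_cases hK : y ∈ K
      · rw [hψ, indicator_of_notMem (show y ∉ Kᶜ from fun e => e hK), abs_zero]
        positivity
      · rw [hψ, indicator_of_mem (show y ∈ Kᶜ from hK), abs_mul, abs_of_nonneg (chi_OutA hab.le _).1]
        exact mul_le_mul (hM y hK (mem_closedBall_iff_norm.1 hy)) (chi_OutA hab.le _).2.1
          (chi_OutA hab.le _).1 hM0
    · rw [indicator_of_notMem hy, hψ]
      by_cases hK : y ∈ K
      · rw [indicator_of_notMem (show y ∉ Kᶜ from fun e => e hK), abs_zero]
      · rw [indicator_of_mem (show y ∈ Kᶜ from hK), hout y hy, mul_zero, abs_zero]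
  have hdb : ∀ᵐ y ∂volume.restrict (Ω \ K), ‖fderiv ℝ ψ y‖ ≤
      (closedBall x b).indicator (fun y => (b - a) * ‖fderiv ℝ v y‖) y +
        (ann x a b).indicator (fun _ => M) y := by
    filter_upwards [hder] with y hy
    rw [hy.2]
    refine (norm_sub_le _ _).trans (add_le_add ?_ ?_)
    · by_cases hy' : y ∈ closedBall x b
      · rw [indicator_of_mem hy', norm_smul, Real.norm_of_nonneg (chi_OutA hab.le _).1]
        exact mul_le_mul_of_nonneg_right (chi_OutA hab.le _).2.1 (norm_nonneg _)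
      · rw [indicator_of_notMem hy', hout y hy', zero_smul, norm_zero]
    · by_cases hy' : y ∈ ann x a b
      · rw [indicator_of_mem hy', indicator_of_mem hy', norm_smul, innerSL_apply_norm]
        exact (mul_le_of_le_one_right (norm_nonneg _) (norm_nu_le x y)).trans (hM y hy.1 hy'.2.le)
      · rw [indicator_of_notMem hy', indicator_of_notMem hy', norm_zero]
  have hdir : Dir ψ (Ω \ K) < ∞ := by
    have h3 := (hind hB ((hi.const_mul (2 * (b - a) ^ 2)).add (hcB (2 * M ^ 2)))).hasFiniteIntegral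
    refine lt_of_le_of_lt (lintegral_mono_ae ?_) h3
    filter_upwards [hdb] with y hy
    rw [← ofReal_norm, ← ENNReal.ofReal_pow (norm_nonneg _), ← ofReal_norm]
    refine ENNReal.ofReal_le_ofReal (le_trans ?_ (Real.le_norm_self _))
    by_cases hy' : y ∈ closedBall x b
    · rw [indicator_of_mem hy'] at hy ⊢
      have h4 : (ann x a b).indicator (fun _ => M) y ≤ M := indicator_le_self' (fun _ _ => hM0) y
      have h5 := pow_le_pow_left₀ (norm_nonneg _) (hy.trans (add_le_add le_rfl h4)) 2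
      simp only [Pi.add_apply, g2]
      nlinarith [sq_nonneg ((b - a) * ‖fderiv ℝ v y‖ - M)]
    · rw [indicator_of_notMem hy', indicator_of_notMem fun e => hy' (hAB e), add_zero] at hy
      rw [indicator_of_notMem hy', le_antisymm hy (norm_nonneg _)]
      simp
  have key := h2 ψ (closedBall x b) (isCompact_closedBall x b) (hBρ.trans h.sub)
    (fun y hy => abs_nonpos_iff.1 ((hψb y).trans (indicator_of_notMem hy _).le))
    (lip_OutA (fun y hy => hy.2) hab.le hl)
    ⟨M * (b - a), fun y => (hψb y).trans (indicator_le_self' (fun _ _ => by positivity) y)⟩ hdir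
  have hf1 : IntegrableOn (fun y => chi a b ‖y - x‖ * fderiv ℝ v y (gr u y)) (closedBall x b) := by
    have hme : Measurable fun y => fderiv ℝ v y (gr u y) := by
      simp only [fderiv_eq]
      exact Complex.measurable_re.comp ((measurable_gr v).mul
        (Complex.continuous_conj.measurable.comp (measurable_gr u)))
    refine ((hi.add hu2).const_mul (b - a)).mono'
      ((chi_cont_OutA a b x).measurable.mul hme).aestronglyMeasurable
      (Eventually.of_forall fun y => ?_)
    rw [norm_mul, Real.norm_of_nonneg (chi_OutA hab.le _).1]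
    refine mul_le_mul (chi_OutA hab.le _).2.1 ?_ (norm_nonneg _) hba
    refine ((fderiv ℝ v y).le_opNorm _).trans ?_
    rw [norm_gr, Pi.add_apply, g2, g2]
    nlinarith [sq_nonneg (‖fderiv ℝ v y‖ - ‖fderiv ℝ u y‖), norm_nonneg (fderiv ℝ v y),
      norm_nonneg (fderiv ℝ u y)]
  have hf2 : Integrable ((ann x a b).indicator fun y => v y * qq u x y)
      (volume.restrict (Ω \ K)) := by
    have hme : Measurable (qq u x) := by
      unfold qq
      simp only [fderiv_eq]
      exact Complex.measurable_re.comp ((measurable_gr u).mul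
        (Complex.continuous_conj.measurable.comp (measurable_nu x)))
    have hvc : ContinuousOn v (Ω \ K) := fun y hy => (hd y hy).continuousAt.continuousWithinAt
    refine (hind hA (IntegrableOn.mono_set (((hcB 1).add hu2).const_mul M) hAB)).mono'
      (((hvc.aestronglyMeasurable hm).mul hme.aestronglyMeasurable).indicator hA) ?_
    filter_upwards [hder] with y hy
    by_cases hy' : y ∈ ann x a b
    · rw [indicator_of_mem hy', indicator_of_mem hy', norm_mul]
      refine mul_le_mul (hM y hy.1 hy'.2.le) ?_ (norm_nonneg _) hM0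
      refine ((fderiv ℝ u y).le_opNorm _).trans
        ((mul_le_of_le_one_right (norm_nonneg _) (norm_nu_le x y)).trans ?_)
      rw [Pi.add_apply, g2]
      nlinarith [sq_nonneg (‖fderiv ℝ u y‖ - 1)]
    · rw [indicator_of_notMem hy', indicator_of_notMem hy', norm_zero]
  have e1 : ∫ y in Ω \ K, fderiv ℝ ψ y (gr u y) =
      (∫ y in closedBall x b, chi a b ‖y - x‖ * fderiv ℝ v y (gr u y)) -
        ∫ y in ann x a b, v y * qq u x y := by
    rw [← ind_OutA h hB hBρ, ← ind_OutA h hA (hAB.trans hBρ), ← integral_sub (hind hB hf1) hf2]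
    refine integral_congr_ae ?_
    filter_upwards [hder] with y hy
    rw [hy.2, _root_.sub_apply]
    congr 1
    · by_cases hy' : y ∈ closedBall x b
      · rw [indicator_of_mem hy', _root_.smul_apply, smul_eq_mul]
      · rw [indicator_of_notMem hy', hout y hy', zero_smul, _root_.zero_apply]
    · by_cases hy' : y ∈ ann x a b
      · rw [indicator_of_mem hy', indicator_of_mem hy', _root_.smul_apply, smul_eq_mul,
          innerSL_apply_apply, Complex.inner, qq, fderiv_eq]
      · rw [indicator_of_notMem hy', indicator_of_notMem hy', _root_.zero_apply]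
  have e2 : ∫ y in Ω \ K, |ψ y| ≤ Real.pi * b ^ 2 * (M * (b - a)) := by
    refine (integral_mono_of_nonneg (Eventually.of_forall fun y => abs_nonneg _) (hind hB (hcB _))
      (Eventually.of_forall hψb)).trans (le_of_eq ?_)
    rw [ind_OutA h hB hBρ, setIntegral_const, smul_eq_mul, Measure.real, Complex.volume_closedBall,
      ENNReal.toReal_mul, ENNReal.toReal_pow, ENNReal.toReal_ofReal hb0.le, ENNReal.coe_toReal,
      NNReal.coe_real_pi]
    ring
  have e3 : ∫ y in Ω \ K, ‖fderiv ℝ ψ y‖ ≤ (b - a) * (∫ y in closedBall x b, ‖fderiv ℝ v y‖) +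
      2 * Real.pi * b * (b - a) * M := by
    have i1 := hind hB (hv1.const_mul (b - a))
    have i2 := hind hA ((hcB M).mono_set hAB)
    refine (integral_mono_of_nonneg (Eventually.of_forall fun y => norm_nonneg _) (i1.add i2)
      hdb).trans ?_
    refine (integral_add i1 i2).le.trans (add_le_add (le_of_eq ?_) ?_)
    · rw [ind_OutA h hB hBρ, integral_const_mul]
    · rw [ind_OutA h hA (hAB.trans hBρ), setIntegral_const, smul_eq_mul]
      exact mul_le_mul_of_nonneg_right
        (ENNReal.toReal_le_of_le_ofReal (by positivity) (volume_ann x ha.le hab.le)) hM0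
  rw [e1] at key
  refine key.trans ?_
  have k1 := mul_le_mul_of_nonneg_left e2 ha₀
  have k2 := mul_le_mul_of_nonneg_left e3 hε
  have k3 : a₀ * b * (Real.pi * b * (M * (b - a))) ≤ ε * (Real.pi * b * (M * (b - a))) :=
    mul_le_mul_of_nonneg_right ha₁ (by positivity)
  have k4 : Real.pi * (ε * b * M * (b - a)) ≤ 10 / 3 * (ε * b * M * (b - a)) :=
    mul_le_mul_of_nonneg_right (by linarith [Real.pi_lt_d2]) (by positivity)
  nlinarith

end

end Vale.Agent.P128.T
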