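import Vale.Agent.P128.T.OutA

/-! P128 T/OutB (TASK, about 200 lines): the two consequences of the outer variation for almost every radius.
`int_q`, `int_uq`: `|qq| ≤ ‖fderiv‖ ≤ (1 + g2)/2`, `u` is continuous on `Ω \ K`, `Tip.null`. `out1`: `Tip.outer` with `v = u - c₀`, `M = 30 √b`; `fderiv u y (gr u y) = g2 u y`;
`∫ chi g2 ≥ (b - a) D a` (`dir_eq`); `‖fderiv‖ ≤ (g2 √b + 1/√b)/2` gives `∫ ‖fderiv‖ ≤ 6 b √b`; `polarT`, `ae_le` with `k s = 310 ε s √s`. `out2`: `v = 1`, `ae_le` for `± CI` with `f = 0`.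
Helper names end with `_OutB`. -/

namespace Vale.Agent.P128.T

open MeasureTheory Set Metric Filter Topology
open scoped ENNReal ComplexConjugate

noncomputable section

variable {Ω K : Set ℂ} {ε ρ a b t c₀ : ℝ} {wk : Prop} {u : ℂ → ℝ} {x : ℂ} {z z' W : ℝ → ℂ}

theorem fin_OutB (x : ℂ) (r : ℝ) : volume (closedBall x r) ≠ ∞ := measure_closedBall_lt_top.ne

theorem ann_OutB (hb : b ≤ ρ) : ann x a b ⊆ closedBall x ρ := fun y hy => by
  rw [mem_closedBall, dist_eq_norm]
  exact hy.2.le.trans hb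

theorem q_le_OutB (u : ℂ → ℝ) (x y : ℂ) : ‖qq u x y‖ ≤ ‖fderiv ℝ u y‖ :=
  ((fderiv ℝ u y).le_opNorm _).trans (mul_le_of_le_one_right (norm_nonneg _) (norm_nu_le x y))

theorem Tip.int_fd_OutB (h : Tip Ω ε wk u K x ρ z z') :
    IntegrableOn (fun y => ‖fderiv ℝ u y‖) (closedBall x ρ) := by
  refine Integrable.mono' (h.int_g2.add (integrableOn_const (C := (1 : ℝ)) (fin_OutB x ρ)))
    (measurable_fderiv ℝ u).norm.aestronglyMeasurable (Eventually.of_forall fun y => ?_)
  simp only [norm_norm, Pi.add_apply, g2]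
  nlinarith [sq_nonneg (‖fderiv ℝ u y‖ - 1), norm_nonneg (fderiv ℝ u y)]

theorem meas_q_OutB (u : ℂ → ℝ) (x : ℂ) : Measurable (qq u x) := by
  have e : qq u x = fun y => (gr u y * conj (nu x y)).re := funext fun y => fderiv_eq u y _
  rw [e]
  exact Complex.measurable_re.comp ((measurable_gr u).mul
    (Complex.continuous_conj.measurable.comp (measurable_nu x)))

theorem Tip.fd_le_OutB (h : Tip Ω ε wk u K x ρ z z') (hb0 : 0 < b) (hb : b ≤ ρ) :
    ∫ y in closedBall x b, ‖fderiv ℝ u y‖ ≤ 6 * b * √b := by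
  have hs : 0 < √b := Real.sqrt_pos.2 hb0
  have hsub := closedBall_subset_closedBall (x := x) hb
  have i1 : IntegrableOn (fun y => √b / 2 * g2 u y) (closedBall x b) :=
    (h.int_g2.mono_set hsub).const_mul _
  have i2 := integrableOn_const (μ := volume) (C := 1 / (2 * √b)) (fin_OutB x b)
  have h1 := integral_mono (h.int_fd_OutB.mono_set hsub) (i1.add i2) fun y => by
    simp only [Pi.add_apply, g2]
    have e : √b / 2 * ‖fderiv ℝ u y‖ ^ 2 + 1 / (2 * √b) - ‖fderiv ℝ u y‖ =
        (√b * ‖fderiv ℝ u y‖ - 1) ^ 2 / (2 * √b) := by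
      field_simp
      ring
    have h2 : 0 ≤ (√b * ‖fderiv ℝ u y‖ - 1) ^ 2 / (2 * √b) := by positivity
    linarith
  simp only [Pi.add_apply] at h1
  rw [integral_add i1 i2, integral_const_mul, ← (h.dir_eq hb).2, setIntegral_const, smul_eq_mul,
    Measure.real, Complex.volume_closedBall] at h1
  simp only [ENNReal.toReal_mul, ENNReal.toReal_pow, ENNReal.toReal_ofReal hb0.le,
    ENNReal.coe_toReal, NNReal.coe_real_pi] at h1
  have h3 := (h.D_le ⟨hb0, hb⟩).2
  have e : b ^ 2 * Real.pi * (1 / (2 * √b)) = Real.pi / 2 * (b * √b) := by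
    have := Real.mul_self_sqrt hb0.le
    field_simp
    nlinarith
  rw [e] at h1
  have h4 : √b / 2 * D u K x b ≤ √b / 2 * (8 * b) := by gcongr
  nlinarith [Real.pi_le_four, mul_pos hb0 hs]

theorem Tip.chi_OutB (h : Tip Ω ε wk u K x ρ z z') (hab : a < b) (hb : b ≤ ρ) :
    (b - a) * D u K x a ≤ ∫ y in closedBall x b, chi a b ‖y - x‖ * fderiv ℝ u y (gr u y) := by
  have e : ∀ y, fderiv ℝ u y (gr u y) = g2 u y := fun y => by
    rw [fderiv_eq, Complex.mul_conj', g2, ← norm_gr, ← Complex.ofReal_pow, Complex.ofReal_re]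
  simp only [e]
  have c0 : ∀ s, 0 ≤ chi a b s ∧ chi a b s ≤ b - a := fun s =>
    ⟨sub_nonneg.2 (max_le hab.le (min_le_right _ _)), sub_le_sub_left (le_max_left _ _) _⟩
  have i1 : IntegrableOn (fun y => chi a b ‖y - x‖ * g2 u y) (closedBall x b) :=
    Integrable.bdd_mul (c := b - a) (h.int_g2.mono_set (closedBall_subset_closedBall hb))
      (Continuous.aestronglyMeasurable (by unfold chi; fun_prop))
      (Eventually.of_forall fun y => by rw [Real.norm_of_nonneg (c0 _).1]; exact (c0 _).2)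
  refine le_trans (le_of_eq ?_) (setIntegral_mono_set i1
    (Eventually.of_forall fun y => mul_nonneg (c0 _).1 (sq_nonneg _))
    (closedBall_subset_closedBall hab.le).eventuallyLE)
  rw [(h.dir_eq (hab.le.trans hb)).2, ← integral_const_mul]
  refine setIntegral_congr_fun measurableSet_closedBall fun y hy => ?_
  rw [mem_closedBall, dist_eq_norm] at hy
  simp only [chi, max_eq_left ((min_le_left _ b).trans hy)]

theorem Tip.int_q (h : Tip Ω ε wk u K x ρ z z') : IntegrableOn (qq u x) (closedBall x ρ) :=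
  Integrable.mono' h.int_fd_OutB (meas_q_OutB u x).aestronglyMeasurable
    (Eventually.of_forall (q_le_OutB u x))

theorem Tip.int_uq (h : Tip Ω ε wk u K x ρ z z') (hc : Hold u K x ρ c₀) :
    IntegrableOn (fun y => (u y - c₀) * qq u x y) (closedBall x (ρ / 2)) := by
  have hρ : ρ / 2 ≤ ρ := half_le_self h.pos.le
  have hsub := closedBall_subset_closedBall (x := x) hρ
  have hm : MeasurableSet (closedBall x (ρ / 2) \ K) :=
    measurableSet_closedBall.diff h.am.closed.measurableSet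
  have e : (closedBall x (ρ / 2) \ K : Set ℂ) =ᵐ[volume] closedBall x (ρ / 2) :=
    sdiff_ae_eq_self.2 (measure_mono_null (fun y hy => mem_inter hy.2 (hsub hy.1)) h.null)
  rw [IntegrableOn, ← Measure.restrict_congr_set e]
  refine Integrable.bdd_mul (c := 30 * √(ρ / 2))
    (h.int_q.mono_set (sdiff_subset.trans hsub))
    (ContinuousOn.aestronglyMeasurable (fun y hy => ?_) hm)
    ((ae_restrict_mem hm).mono fun y hy => ?_)
  · exact ((h.am.diff y ⟨h.sub (hsub hy.1), hy.2⟩).continuousAt.sub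
      continuousAt_const).continuousWithinAt
  · have h1 : ‖y - x‖ ≤ ρ / 2 := by simpa [dist_eq_norm] using hy.1
    exact (hc y hy.2 h1).trans (by gcongr)

theorem Tip.out1 (h : Tip Ω ε wk u K x ρ z z') (hc : Hold u K x ρ c₀) :
    ∀ᵐ s, s ∈ Ioo 0 (ρ / 2) →
      D u K x s - 310 * ε * s * √s ≤ CI x z (fun y => (u y - c₀) * qq u x y) s := by
  have hρ : ρ / 2 ≤ ρ := half_le_self h.pos.le
  have pol := fun (a b : ℝ) (ha : 0 ≤ a) (hab : a ≤ b) (hb : b ≤ ρ / 2) =>
    polarT (z := z) ha hab (fun s hs => h.norm s ⟨ha.trans_lt hs.1, hs.2.le.trans (hb.trans hρ)⟩)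
      ((h.int_uq hc).mono_set (ann_OutB hb))
  refine ae_le (k := fun s => 310 * ε * s * √s) (pol 0 _ le_rfl (half_pos h.pos).le le_rfl).1
    (by fun_prop) fun a b ha hab hb => ?_
  have hb' : b ≤ ρ := hb.le.trans hρ
  have hb0 : 0 < b := ha.trans hab
  have e : ∀ y, fderiv ℝ (fun y => u y - c₀) y = fderiv ℝ u y := fun y => fderiv_sub_const c₀
  have h1 := h.outer (v := fun y => u y - c₀) (M := 30 * √b) ha hab hb'
    (fun y hy => (h.am.diff y hy).sub_const c₀)
    (fun y hy => by
      obtain ⟨L, t, ht, hL⟩ := locLip h.am hy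
      exact ⟨L, t, ht, fun p hp q hq => by rw [edist_sub_right]; exact hL hp hq⟩)
    (fun y hy h2 => (hc y hy (h2.trans hb.le)).trans (by gcongr))
    (by
      have e2 : g2 (fun y => u y - c₀) = g2 u := funext fun y => by simp only [g2, e]
      rw [e2]
      exact h.int_g2.mono_set (closedBall_subset_closedBall hb'))
  simp only [e] at h1
  rw [(pol a b ha.le hab.le hb.le).2.1]
  have h2 := h.chi_OutB hab hb'
  have h3 := h.fd_le_OutB hb0 hb'
  have h4 : 0 ≤ (b - a) * ε := mul_nonneg (sub_nonneg.2 hab.le) h.am.eps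
  have h5 : 0 ≤ b * √b := by positivity
  have h6 := mul_le_mul_of_nonneg_left
    (show 10 * (30 * √b) * b + ∫ y in closedBall x b, ‖fderiv ℝ u y‖ ≤ 310 * b * √b by linarith) h4
  linarith [(abs_le.1 h1).2]

theorem Tip.out2 (h : Tip Ω ε wk u K x ρ z z') :
    ∀ᵐ s, s ∈ Ioo 0 ρ → |CI x z (qq u x) s| ≤ 10 * ε * s := by
  have pol := fun (a b : ℝ) (ha : 0 ≤ a) (hab : a ≤ b) (hb : b ≤ ρ) =>
    polarT (z := z) ha hab (fun s hs => h.norm s ⟨ha.trans_lt hs.1, hs.2.le.trans hb⟩)
      (h.int_q.mono_set (ann_OutB hb))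
  have key : ∀ a b, 0 < a → a < b → b < ρ →
      |∫ s in a..b, CI x z (qq u x) s| ≤ (b - a) * (10 * ε * b) := fun a b ha hab hb => by
    have h1 := h.outer (v := fun _ => 1) (M := 1) ha hab hb.le
      (fun y _ => differentiableAt_const _)
      (LipschitzWith.const (1 : ℝ)).locallyLipschitz.locallyLipschitzOn (fun y _ _ => by simp)
      (by
        have e2 : g2 (fun _ => 1) = fun _ => 0 := funext fun y => by simp [g2]
        rw [e2]
        exact integrableOn_zero)
    rw [(pol a b ha.le hab.le hb.le).2.1]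
    simp only [fderiv_fun_const, Pi.zero_apply, zero_apply, mul_zero,
      integral_zero, zero_sub, abs_neg, one_mul, norm_zero, add_zero, mul_one] at h1
    linarith
  have hF := (pol 0 _ le_rfl h.pos.le le_rfl).1
  have h1 := ae_le (f := fun _ => 0) (k := fun s => 10 * ε * s) hF (by fun_prop)
    fun a b ha hab hb => by linarith [(abs_le.1 (key a b ha hab hb)).1]
  have h2 := ae_le (F := fun s => -CI x z (qq u x) s) (f := fun _ => 0)
    (k := fun s => 10 * ε * s) hF.neg (by fun_prop) fun a b ha hab hb => by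
      rw [intervalIntegral.integral_neg]
      linarith [(abs_le.1 (key a b ha hab hb)).2]
  filter_upwards [h1, h2] with s h1 h2 hs
  exact abs_le.2 ⟨by linarith [h1 hs], by linarith [h2 hs]⟩

end

end Vale.Agent.P128.T
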