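import Vale.Agent.P128.T.Basic

/-! P128 T/Phi (TASK, about 250 lines): the deformation.
`V_lip`: `V s - V s' = ∫` over an interval inside `[a, b]` of length at most `|s - s'|` (`intervalIntegral.norm_integral_le_of_norm_le_const`). `exists_homeo`: `Phi - id` is `1/2`-Lipschitz, so
`ApproximatesLinearOn Phi (ContinuousLinearEquiv.refl ℝ ℂ) univ (1/2)`, `ApproximatesLinearOn.toHomeomorph`; `‖Phi y - Phi y'‖ ≥ ‖y - y'‖ / 2`.
`image_ball`: a bijection fixing the complement of a set maps the set onto itself. `hasDerivWithinAt_V`: on `Icc a b` the lower limit is `s`; extend `W` continuously by `projIcc` (`Set.IccExtend`) and use `Continuous.deriv_integral`-type FTC (`intervalIntegral.integral_hasDerivAt_left`); `hasDerivAt_V` follows.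
`hasFDerivAt_norm`: `HasFDerivAt.norm_sq` and `sqrt`. `LL_det`: `ContinuousLinearMap.det`, `LinearMap.det_toMatrix Complex.basisOneI`, `Matrix.det_fin_two`.
`alg`: `ℓ ∘ LI = innerSL ℝ (G + (⟪G, w⟫ / (1 - ⟪ν, w⟫)) • ν)`; norm squared times `1 - ⟪ν, w⟫` is `|G|² (1 - ⟪ν,w⟫) + 2 ⟪G,ν⟫ ⟪G,w⟫ + ⟪G,w⟫² / (1 - ⟪ν,w⟫)`. Helper names end with `_Phi`. -/

namespace Vale.Agent.P128.T

open MeasureTheory Set Metric Filter Topology
open scoped ENNReal ComplexConjugate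

noncomputable section

variable {Ω K : Set ℂ} {ε ρ a b t c₀ : ℝ} {wk : Prop} {u : ℂ → ℝ} {x : ℂ} {z z' W : ℝ → ℂ}

theorem Fld.mem_Phi (h : Fld W a b t) (s : ℝ) : max a (min s b) ∈ Icc a b :=
  ⟨le_max_left _ _, max_le h.le (min_le_right _ _)⟩

theorem Fld.ii_Phi (h : Fld W a b t) {c d : ℝ} (hc : c ∈ Icc a b) (hd : d ∈ Icc a b) :
    IntervalIntegrable W volume c d := (h.cont.mono (uIcc_subset_Icc hc hd)).intervalIntegrable

theorem clamp_Phi (a b s s' : ℝ) : |max a (min s' b) - max a (min s b)| ≤ |s - s'| := by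
  rw [max_comm a, max_comm a, abs_sub_comm s s']
  refine (abs_max_sub_max_le_abs _ _ _).trans ?_
  rw [abs_le]
  have h1 := le_abs_self (s' - s)
  have h2 := neg_abs_le (s' - s)
  have h3 := abs_nonneg (s' - s)
  constructor <;> simp only [min_def] <;> split_ifs <;> linarith

theorem Fld.V_lip (h : Fld W a b t) (s s' : ℝ) : ‖V W a b s - V W a b s'‖ ≤ t * |s - s'| := by
  have hb : b ∈ Icc a b := right_mem_Icc.2 h.le
  have t0 : 0 ≤ t := (norm_nonneg _).trans (h.bd b hb)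
  unfold V
  rw [← intervalIntegral.integral_add_adjacent_intervals (h.ii_Phi (h.mem_Phi s) (h.mem_Phi s'))
    (h.ii_Phi (h.mem_Phi s') hb), add_sub_cancel_right]
  refine (intervalIntegral.norm_integral_le_of_norm_le_const (C := t) fun σ hσ => ?_).trans
    (mul_le_mul_of_nonneg_left (clamp_Phi a b s s') t0)
  exact h.bd σ (uIcc_subset_Icc (h.mem_Phi s) (h.mem_Phi s') (uIoc_subset_uIcc hσ))

theorem Fld.lip_Phi (h : Fld W a b t) (x y y' : ℂ) :
    ‖Phi W x a b y - Phi W x a b y' - (y - y')‖ ≤ 1 / 2 * ‖y - y'‖ := by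
  have e : Phi W x a b y - Phi W x a b y' - (y - y') = V W a b ‖y - x‖ - V W a b ‖y' - x‖ := by
    unfold Phi; ring
  have k := abs_norm_sub_norm_le (y - x) (y' - x)
  rw [sub_sub_sub_cancel_right] at k
  rw [e]
  exact (h.V_lip _ _).trans (mul_le_mul h.half k (abs_nonneg _) (by norm_num))

theorem Fld.exists_homeo (h : Fld W a b t) (x : ℂ) :
    ∃ Φ : ℂ ≃ₜ ℂ, (∀ y, Φ y = Phi W x a b y) ∧ LipschitzWith 2 Φ.symm := by
  have hA : ApproximatesLinearOn (Phi W x a b)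
      (ContinuousLinearEquiv.refl ℝ ℂ : ℂ →L[ℝ] ℂ) univ (1 / 2) := fun y _ y' _ => by
    simpa using h.lip_Phi x y y'
  have hc : Subsingleton ℂ ∨ (1 / 2 : NNReal) <
      ‖((ContinuousLinearEquiv.refl ℝ ℂ).symm : ℂ →L[ℝ] ℂ)‖₊⁻¹ := by
    right
    rw [ContinuousLinearEquiv.refl_symm, ContinuousLinearEquiv.coe_refl,
      ContinuousLinearMap.nnnorm_id]
    norm_num
  have hΦ : ∀ y, hA.toHomeomorph _ hc y = Phi W x a b y := fun _ => rfl
  refine ⟨hA.toHomeomorph _ hc, hΦ, LipschitzWith.of_dist_le_mul fun p q => ?_⟩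
  obtain ⟨y, rfl⟩ := (hA.toHomeomorph _ hc).surjective p
  obtain ⟨y', rfl⟩ := (hA.toHomeomorph _ hc).surjective q
  rw [Homeomorph.symm_apply_apply, Homeomorph.symm_apply_apply, hΦ, hΦ, dist_eq_norm, dist_eq_norm]
  have k := h.lip_Phi x y y'
  have k2 := norm_sub_norm_le (y - y') (Phi W x a b y - Phi W x a b y')
  rw [norm_sub_rev (y - y')] at k2
  push_cast
  linarith

theorem Fld.Phi_out (h : Fld W a b t) {y : ℂ} (hy : b ≤ ‖y - x‖) : Phi W x a b y = y := by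
  unfold Phi V
  rw [min_eq_right hy, max_eq_right h.le, intervalIntegral.integral_same, add_zero]

theorem Fld.Phi_in (h : Fld W a b t) {y : ℂ} (hy : ‖y - x‖ ≤ a) :
    Phi W x a b y = y + V W a b a := by
  unfold Phi V
  rw [min_eq_left (hy.trans h.le), max_eq_left hy, min_eq_left h.le, max_self]

theorem Fld.image_ball (h : Fld W a b t) {Φ : ℂ ≃ₜ ℂ} (hΦ : ∀ y, Φ y = Phi W x a b y) {S : Set ℂ}
    (hS : ball x b ⊆ S) : Φ '' S = S := by
  have e : Φ '' Sᶜ = Sᶜ := by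
    refine (image_congr fun y hy => ?_).trans (image_id _)
    rw [hΦ]
    refine h.Phi_out (not_lt.1 fun hl => hy (hS ?_))
    rwa [mem_ball, dist_eq_norm]
  rw [image_compl_eq Φ.bijective] at e
  exact compl_injective e

theorem Fld.dV_Phi (h : Fld W a b t) {s : ℝ} (hs : s ∈ Icc a b) :
    HasDerivWithinAt (V W a b) (-W s) (Icc a b) s := by
  have : Fact (s ∈ Icc a b) := ⟨hs⟩
  have k := intervalIntegral.integral_hasDerivWithinAt_left (s := Icc a b) (t := Icc a b)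
    (h.ii_Phi hs (right_mem_Icc.2 h.le))
    (h.cont.stronglyMeasurableAtFilter_nhdsWithin measurableSet_Icc s) (h.cont s hs)
  have e : ∀ σ ∈ Icc a b, V W a b σ = ∫ τ in σ..b, W τ := fun σ hσ => by
    unfold V
    rw [min_eq_left hσ.2, max_eq_right hσ.1]
  exact k.congr e (e s hs)

theorem Fld.hasDerivAt_V (h : Fld W a b t) {s : ℝ} (hs : s ∈ Ioo a b) :
    HasDerivAt (V W a b) (-W s) s :=
  (h.dV_Phi (Ioo_subset_Icc_self hs)).hasDerivAt (Icc_mem_nhds hs.1 hs.2)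

theorem Fld.hasDerivWithinAt_V (h : Fld W a b t) {s : ℝ} (hs : s ∈ Icc a b) :
    HasDerivWithinAt (V W a b) (-W s) (Icc a b) s := h.dV_Phi hs

theorem hasFDerivAt_norm {y : ℂ} (h : y ≠ x) :
    HasFDerivAt (fun y : ℂ => ‖y - x‖) (innerSL ℝ (nu x y)) y := by
  have h0 : ‖y - x‖ ≠ 0 := norm_ne_zero_iff.2 (sub_ne_zero.2 h)
  have h1 := ((hasFDerivAt_id (𝕜 := ℝ) y).sub_const x).norm_sq.sqrt (pow_ne_zero 2 h0)
  simp only [id, Real.sqrt_sq (norm_nonneg _)] at h1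
  refine h1.congr_fderiv (ContinuousLinearMap.ext fun v => ?_)
  have e : nu x y = ‖y - x‖⁻¹ • (y - x) := by
    unfold nu
    rw [Complex.real_smul, div_eq_inv_mul, Complex.ofReal_inv]
  rw [e]
  simp only [ContinuousLinearMap.smul_apply, ContinuousLinearMap.comp_apply, innerSL_apply_apply,
    real_inner_smul_left, ContinuousLinearMap.id_apply, smul_eq_mul, nsmul_eq_mul]
  field_simp
  norm_num

theorem Fld.hasFDerivAt (h : Fld W a b t) {y : ℂ} (hy : y ∈ ann x a b) :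
    HasFDerivAt (Phi W x a b) (LL (nu x y) (W ‖y - x‖)) y := by
  have h0 : y ≠ x := by
    rintro rfl
    have := hy.1
    rw [sub_self, norm_zero] at this
    exact absurd h.pos this.not_gt
  have h1 := (hasFDerivAt_id y).add
    ((h.hasDerivAt_V (s := ‖y - x‖) hy).hasFDerivAt.comp y (hasFDerivAt_norm h0))
  refine HasFDerivAt.congr_fderiv h1 (ContinuousLinearMap.ext fun v => ?_)
  simp [LL, sub_eq_add_neg]

theorem LL_det (ν w : ℂ) : (LL ν w).det = 1 - inner ℝ ν w := by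
  unfold ContinuousLinearMap.det
  rw [← LinearMap.det_toMatrix Complex.basisOneI, Matrix.det_fin_two]
  simp [LinearMap.toMatrix_apply, LL, Complex.inner]
  ring

theorem LL_Phi (ν w v : ℂ) : LL ν w v = v - inner ℝ ν v • w := rfl

theorem LI_Phi (ν w v : ℂ) : LI ν w v = v + inner ℝ ν v • ((1 - inner ℝ ν w)⁻¹ • w) := rfl

theorem exists_equiv {ν w : ℂ} (h : inner ℝ ν w ≠ (1 : ℝ)) :
    ∃ e : ℂ ≃L[ℝ] ℂ, (e : ℂ →L[ℝ] ℂ) = LL ν w ∧ (e.symm : ℂ →L[ℝ] ℂ) = LI ν w := by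
  have d : (1 - inner ℝ ν w : ℝ) ≠ 0 := sub_ne_zero.2 h.symm
  refine ⟨ContinuousLinearEquiv.equivOfInverse (LL ν w) (LI ν w) (fun v => ?_) fun v => ?_, rfl, rfl⟩
  · rw [LI_Phi, LL_Phi, inner_sub_right, real_inner_smul_right, smul_smul, sub_add, ← sub_smul]
    have : inner ℝ ν v - (inner ℝ ν v - inner ℝ ν v * inner ℝ ν w) * (1 - inner ℝ ν w)⁻¹ = (0 : ℝ) := by
      field_simp
      ring
    rw [this, zero_smul, sub_zero]
  · rw [LL_Phi, LI_Phi, inner_add_right, smul_smul, real_inner_smul_right, add_sub_assoc, ← sub_smul]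
    have : inner ℝ ν v * (1 - inner ℝ ν w)⁻¹ -
        (inner ℝ ν v + inner ℝ ν v * (1 - inner ℝ ν w)⁻¹ * inner ℝ ν w) = (0 : ℝ) := by
      field_simp
      ring
    rw [this, zero_smul, add_zero]

theorem alg {ν w G : ℂ} {ℓ : ℂ →L[ℝ] ℝ} (hν : ‖ν‖ = 1) (hw : ‖w‖ ≤ t) (ht : t ≤ 1 / 2)
    (hG : ∀ v, ℓ v = (G * conj v).re) :
    |(LL ν w).det| * ‖ℓ.comp (LI ν w)‖ ^ 2 ≤
      ‖G‖ ^ 2 + (conj w * (G ^ 2 * conj ν)).re + 2 * t ^ 2 * ‖G‖ ^ 2 := by
  have hl : ∀ v, ℓ v = inner ℝ G v := fun v => by rw [hG, real_inner_comm, Complex.inner]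
  have h1 : |inner ℝ ν w| ≤ t := by
    have := abs_real_inner_le_norm ν w
    rw [hν, one_mul] at this
    exact this.trans hw
  have hd : 1 / 2 ≤ 1 - inner ℝ ν w := by linarith [(abs_le.1 h1).2]
  have hd0 : (0 : ℝ) < 1 - inner ℝ ν w := by linarith
  have e : ℓ.comp (LI ν w) = innerSL ℝ (G + ((1 - inner ℝ ν w)⁻¹ * inner ℝ G w) • ν) := by
    ext1 v
    rw [ContinuousLinearMap.comp_apply, hl, LI_Phi, innerSL_apply_apply, inner_add_right,
      inner_add_left, real_inner_smul_right, real_inner_smul_right, real_inner_smul_left]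
    ring
  have e2 : (conj w * (G ^ 2 * conj ν)).re =
      2 * inner ℝ G ν * inner ℝ G w - ‖G‖ ^ 2 * inner ℝ ν w := by
    rw [Complex.sq_norm, Complex.normSq_apply]
    simp only [Complex.inner, sq, Complex.mul_re, Complex.mul_im, Complex.conj_re, Complex.conj_im]
    ring
  have h2 : inner ℝ G w ^ 2 ≤ t ^ 2 * ‖G‖ ^ 2 := by
    rw [← mul_pow, ← sq_abs]
    refine pow_le_pow_left₀ (abs_nonneg _) ((abs_real_inner_le_norm G w).trans ?_) 2
    rw [mul_comm]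
    exact mul_le_mul_of_nonneg_right hw (norm_nonneg _)
  have h3 : (1 - inner ℝ ν w)⁻¹ ≤ 2 := by
    rw [inv_le_comm₀ hd0 two_pos]; linarith
  have h4 : (1 - inner ℝ ν w)⁻¹ * inner ℝ G w ^ 2 ≤ 2 * (t ^ 2 * ‖G‖ ^ 2) :=
    mul_le_mul h3 h2 (sq_nonneg _) two_pos.le
  rw [LL_det, abs_of_pos hd0, e, innerSL_apply_norm, norm_add_sq_real, real_inner_smul_right,
    norm_smul, hν, mul_one, Real.norm_eq_abs, sq_abs, e2]
  have e3 : (1 - inner ℝ ν w) * (‖G‖ ^ 2 + 2 * ((1 - inner ℝ ν w)⁻¹ * inner ℝ G w * inner ℝ G ν) +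
      ((1 - inner ℝ ν w)⁻¹ * inner ℝ G w) ^ 2) = (1 - inner ℝ ν w) * ‖G‖ ^ 2 +
      2 * inner ℝ G ν * inner ℝ G w + (1 - inner ℝ ν w)⁻¹ * inner ℝ G w ^ 2 := by
    field_simp
  rw [e3]
  linarith

end

end Vale.Agent.P128.T
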