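import Vale.Agent.P128.T.Defs
import Vale.Agent.P128.TA1.Main

/-! P128 T/Polar (TASK, about 150 lines): polar coordinates with the angle measured from the curve.
For `s ∈ Ioo a b` write `z s - x = s * exp (θ I)`; `φ ↦ f (x + s exp (φ I))` is `2π` periodic, so `CI x z f s = s • ∫ φ in -π..π, f (x + s exp (φ I))`
(`Function.Periodic.intervalIntegral_add_eq`, `Function.Periodic.intervalIntegrable`). Translate by `x`, apply `Complex.integral_comp_polarCoord_symm` to the indicator;
integrability on the product from `integrableOn_image_iff_integrableOn_abs_det_fderiv_smul` (or `Complex.lintegral_comp_polarCoord_symm`), then Fubini (`integral_prod`, `Integrable.prod_right_ae`).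
(The real valued `polar_int` of TA1 may be used for guidance; the statement here is for a general `E`.)
`ae_le`: `IntervalIntegrable.ae_hasDerivAt_integral` (or `IsUnifLocDoublingMeasure.ae_tendsto_average`), right slopes, `ge_of_tendsto`. Helper names end with `_Polar`. -/

namespace Vale.Agent.P128.T

open MeasureTheory Set Metric Filter Topology
open scoped ENNReal ComplexConjugate

noncomputable section

variable {Ω K : Set ℂ} {ε ρ a b t c₀ : ℝ} {wk : Prop} {u : ℂ → ℝ} {x : ℂ} {z z' W : ℝ → ℂ}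

theorem gen_Polar {E : Type} [NormedAddCommGroup E] [NormedSpace ℝ E] {F : ℂ → E} (y : ℂ)
    {I : Set ℝ} (hI : MeasurableSet I) (hI0 : I ⊆ Ioi 0)
    (hF : IntegrableOn F {z | dist z y ∈ I}) :
    IntegrableOn (fun s : ℝ => ∫ θ in Ioc (-Real.pi) Real.pi, s • F (circleMap y s θ)) I ∧
    (∀ᵐ s ∂(volume.restrict I),
      IntegrableOn (fun θ => s • F (circleMap y s θ)) (Ioc (-Real.pi) Real.pi)) ∧
    ∫ z in {z | dist z y ∈ I}, F z =
      ∫ s in I, ∫ θ in Ioc (-Real.pi) Real.pi, s • F (circleMap y s θ) := by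
  have hm : Measurable fun p : ℝ × ℝ => ENNReal.ofReal p.1 := measurable_fst.ennreal_ofReal
  set ν := (volume.restrict I).prod (volume.restrict (Ioc (-Real.pi) Real.pi)) with hν
  have hlt : ∀ᵐ p ∂ν, ENNReal.ofReal p.1 < ∞ :=
    Eventually.of_forall fun _ => ENNReal.ofReal_lt_top
  have hmap := poli_map y hI hI0
  rw [← hν] at hmap
  have hpos : ∀ᵐ p ∂ν, 0 < p.1 := by
    have h1 : ∀ᵐ s ∂(volume.restrict I), (0 : ℝ) < s :=
      (ae_restrict_mem hI).mono fun s hs => hI0 hs
    exact Measure.quasiMeasurePreserving_fst.ae h1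
  have hcongr : (fun p : ℝ × ℝ => (ENNReal.ofReal p.1).toReal • F (circleMap y p.1 p.2)) =ᵐ[ν]
      fun p => p.1 • F (circleMap y p.1 p.2) := by
    filter_upwards [hpos] with p hp
    rw [ENNReal.toReal_ofReal hp.le]
  unfold IntegrableOn at hF
  rw [hmap] at hF
  have h1 := (integrable_map_measure hF.aestronglyMeasurable (poli_meas y).aemeasurable).1 hF
  have h2 := ((integrable_withDensity_iff_integrable_smul' hm hlt).1 h1).congr hcongr
  refine ⟨h2.integral_prod_left, h2.prod_right_ae, ?_⟩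
  rw [hmap, integral_map (poli_meas y).aemeasurable hF.aestronglyMeasurable,
    integral_withDensity_eq_integral_toReal_smul hm hlt, integral_congr_ae hcongr,
    integral_prod _ h2]

theorem ann_Polar (x : ℂ) (a b : ℝ) : ann x a b = {y | dist y x ∈ Ioo a b} := by
  ext y
  simp only [ann, mem_ofPred_eq, dist_eq_norm, mem_Ioo]

theorem P_Polar {s : ℝ} (hs : ‖z s - x‖ = s) (φ : ℝ) :
    P x z s φ = circleMap x s (φ + Complex.arg (z s - x)) := by
  have h := Complex.norm_mul_exp_arg_mul_I (z s - x)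
  rw [hs] at h
  rw [P, circleMap, Complex.ofReal_add, add_mul, Complex.exp_add]
  linear_combination (-Complex.exp (φ * Complex.I)) * h

theorem CI_Polar {E : Type} [NormedAddCommGroup E] [NormedSpace ℝ E] (f : ℂ → E) {s : ℝ}
    (hs : ‖z s - x‖ = s) :
    CI x z f s = ∫ θ in Ioc (-Real.pi) Real.pi, s • f (circleMap x s θ) := by
  have hper : Function.Periodic (fun φ => f (circleMap x s φ)) (2 * Real.pi) :=
    fun φ => by simp only [periodic_circleMap x s φ]
  have h1 := intervalIntegral.integral_comp_add_right (a := 0) (b := 2 * Real.pi)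
    (fun φ => f (circleMap x s φ)) (Complex.arg (z s - x))
  have h2 := hper.intervalIntegral_add_eq (Complex.arg (z s - x)) (-Real.pi)
  have e1 : -Real.pi + 2 * Real.pi = Real.pi := by ring
  rw [zero_add, add_comm (2 * Real.pi)] at h1
  rw [e1, intervalIntegral.integral_of_le (a := -Real.pi) (by linarith [Real.pi_pos])] at h2
  rw [integral_smul, CI, ← h2, ← h1]
  simp only [P_Polar hs]

theorem II_Polar {E : Type} [NormedAddCommGroup E] [NormedSpace ℝ E] {f : ℂ → E} {s : ℝ}
    (hs0 : s ≠ 0) (hs : ‖z s - x‖ = s)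
    (h : IntegrableOn (fun θ => s • f (circleMap x s θ)) (Ioc (-Real.pi) Real.pi)) :
    IntervalIntegrable (fun φ => f (P x z s φ)) volume 0 (2 * Real.pi) := by
  have hper : Function.Periodic (fun φ => f (circleMap x s φ)) (2 * Real.pi) :=
    fun φ => by simp only [periodic_circleMap x s φ]
  have h1 : IntegrableOn (fun θ => f (circleMap x s θ)) (Ioc (-Real.pi) Real.pi) :=
    (integrable_fun_smul_iff hs0 _).1 h
  have e1 : -Real.pi + 2 * Real.pi = Real.pi := by ring
  have h2 : IntervalIntegrable (fun θ => f (circleMap x s θ)) volume (-Real.pi)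
      (-Real.pi + 2 * Real.pi) := by
    rw [e1]
    exact (intervalIntegrable_iff_integrableOn_Ioc_of_le (by linarith [Real.pi_pos])).2 h1
  have h3 := (hper.intervalIntegrable (by positivity) h2 (0 + Complex.arg (z s - x))
    (2 * Real.pi + Complex.arg (z s - x))).comp_add_right (Complex.arg (z s - x))
  rw [add_sub_cancel_right, add_sub_cancel_right] at h3
  simpa only [P_Polar hs] using h3

theorem polarT {E : Type} [NormedAddCommGroup E] [NormedSpace ℝ E] [CompleteSpace E] {f : ℂ → E}
    (ha : 0 ≤ a) (hab : a ≤ b) (hz : ∀ s ∈ Ioo a b, ‖z s - x‖ = s)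
    (hf : IntegrableOn f (ann x a b)) :
    IntervalIntegrable (CI x z f) volume a b ∧ ∫ s in a..b, CI x z f s = ∫ y in ann x a b, f y ∧
      ∀ᵐ s, s ∈ Ioo a b →
        IntervalIntegrable (fun φ => f (P x z s φ)) volume 0 (2 * Real.pi) := by
  rw [ann_Polar] at hf ⊢
  obtain ⟨h1, h2, h3⟩ := gen_Polar x measurableSet_Ioo (fun s hs => lt_of_le_of_lt ha hs.1) hf
  have hc : EqOn (fun s : ℝ => ∫ θ in Ioc (-Real.pi) Real.pi, s • f (circleMap x s θ))
      (CI x z f) (Ioo a b) := fun s hs => (CI_Polar f (hz s hs)).symm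
  refine ⟨(intervalIntegrable_iff_integrableOn_Ioo_of_le hab).2
    (h1.congr_fun hc measurableSet_Ioo), ?_, ?_⟩
  · rw [h3, intervalIntegral.integral_of_le hab, integral_Ioc_eq_integral_Ioo]
    exact (setIntegral_congr_fun measurableSet_Ioo hc).symm
  · filter_upwards [(ae_restrict_iff' measurableSet_Ioo).1 h2] with s hs hs'
    exact II_Polar (lt_of_le_of_lt ha hs'.1).ne' (hz s hs') (hs hs')

theorem measurableSet_ann (x : ℂ) (a b : ℝ) : MeasurableSet (ann x a b) := by
  have h : Measurable fun y : ℂ => ‖y - x‖ := by fun_prop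
  exact h measurableSet_Ioo

theorem volume_ann (x : ℂ) (ha : 0 ≤ a) (hab : a ≤ b) :
    volume (ann x a b) ≤ ENNReal.ofReal (2 * Real.pi * b * (b - a)) := by
  have h := (polar_gen (F := fun _ => 1) measurable_const x).2 (Ioo a b) measurableSet_Ioo
    (fun s hs => lt_of_le_of_lt ha hs.1)
  have hb : 0 ≤ b := ha.trans hab
  rw [setLIntegral_one] at h
  rw [ann_Polar, h]
  calc ∫⁻ s in Ioo a b, ∫⁻ θ in Ioc (-Real.pi) Real.pi, ENNReal.ofReal s * 1
      ≤ ∫⁻ s in Ioo a b, ENNReal.ofReal (2 * Real.pi * b) := by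
        refine setLIntegral_mono' measurableSet_Ioo fun s hs => ?_
        rw [setLIntegral_const, mul_one, Real.volume_Ioc,
          ← ENNReal.ofReal_mul (ha.trans hs.1.le)]
        refine ENNReal.ofReal_le_ofReal ?_
        nlinarith [Real.pi_pos, hs.2]
    _ = _ := by
        rw [setLIntegral_const, Real.volume_Ioo, ← ENNReal.ofReal_mul (by positivity)]

theorem ae_le {F f k : ℝ → ℝ} {R : ℝ} (hF : IntervalIntegrable F volume 0 R) (hk : Continuous k)
    (h : ∀ a b, 0 < a → a < b → b < R → (b - a) * (f a - k b) ≤ ∫ s in a..b, F s) :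
    ∀ᵐ s, s ∈ Ioo 0 R → f s - k s ≤ F s := by
  filter_upwards [hF.ae_hasDerivAt_integral] with s hs hs'
  have hm : s ∈ uIcc 0 R := mem_uIcc.2 (Or.inl ⟨hs'.1.le, hs'.2.le⟩)
  have h1 := (hasDerivAt_iff_tendsto_slope.1 (hs hm s hm)).mono_left (nhdsGT_le_nhdsNE s)
  have h2 : Tendsto (fun b => f s - k b) (𝓝[>] s) (𝓝 (f s - k s)) :=
    (tendsto_const_nhds.sub (hk.tendsto s)).mono_left nhdsWithin_le_nhds
  refine le_of_tendsto_of_tendsto h2 h1 ?_
  filter_upwards [Ioo_mem_nhdsGT hs'.2] with b hb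
  have h3 := h s b hs'.1 hb.1 hb.2
  rw [slope_def_field, intervalIntegral.integral_same, sub_zero,
    le_div_iff₀ (sub_pos.2 hb.1), mul_comm]
  exact h3

end

end Vale.Agent.P128.T
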